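import Vale.Agent.Lib.P322HN.Series
import Vale.Agent.Lib.P322.CubeBasics

/-!
# Jensen with a variance remainder for `Ph`
-/

namespace Vale.Agent.Lib.P322HN

open Real Finset
open Vale.Agent.Lib.P322B Vale.Agent.Lib.P322

variable {n : ℕ}

/-- The variance bound: `E Ph(g) ≤ Ph (sqrt c) + B2 Var(g²)/(1-c)²` with `c = E g²`. -/
theorem avg_Ph_le (g : Cube n → ℝ) (hg : ∀ y, |g y| < 1) :
    avg (fun y => Ph (g y)) ≤ Ph (√(avg (fun y => g y ^ 2))) +
      B2 * (avg (fun y => (g y ^ 2 - avg (fun y => g y ^ 2)) ^ 2) /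
        (1 - avg (fun y => g y ^ 2)) ^ 2) := by
  set c := avg (fun y => g y ^ 2) with hc
  set V := avg (fun y => (g y ^ 2 - c) ^ 2) with hV
  have hτ0 : ∀ y, 0 ≤ g y ^ 2 := fun y => sq_nonneg _
  have hτ1 : ∀ y, g y ^ 2 < 1 := by
    intro y
    have := hg y
    nlinarith [sq_abs (g y), abs_nonneg (g y)]
  have hc0 : 0 ≤ c := avg_nonneg hτ0
  have hc1 : c < 1 := by
    -- a finite average of numbers below one
    have hne : (univ : Finset (Cube n)).Nonempty := univ_nonempty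
    have h1 : ∑ y, g y ^ 2 < ∑ _y : Cube n, (1 : ℝ) := sum_lt_sum_of_nonempty hne (fun y _ => hτ1 y)
    have h2 : (∑ _y : Cube n, (1 : ℝ)) = 2 ^ n := by
      simp [Finset.card_univ, Fintype.card_pi]
    rw [h2] at h1
    rw [hc]
    unfold avg
    rw [div_lt_one (by positivity)]
    exact h1
  set K := V / (1 - c) ^ 2 with hK
  have hsqrt : |√c| < 1 ∧ (√c) ^ 2 = c := by
    refine ⟨?_, Real.sq_sqrt hc0⟩
    rw [abs_of_nonneg (Real.sqrt_nonneg c)]
    exact (Real.sqrt_lt' (by norm_num)).2 (by simpa using hc1)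
  -- the series of the average
  have s1 : HasSum (fun k : ℕ => avg (fun y => bc (k + 1) * (g y ^ 2) ^ (k + 2)))
      (avg (fun y => Ph (g y) - g y ^ 2 / 2)) := by
    unfold avg
    have := hasSum_sum (s := univ) (fun y _ => Ph_hasSum_shift (hg y))
    exact this.div_const _
  have s2 := Ph_hasSum_shift hsqrt.1
  rw [hsqrt.2] at s2
  have s3 : HasSum (fun k : ℕ => bc (k + 1) * K) (B2 * K) :=
    summable_bc.hasSum.mul_right K
  have s4 := s2.add s3
  have hle := hasSum_le (fun k => ?_) s1 s4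
  · have e : avg (fun y => Ph (g y) - g y ^ 2 / 2) = avg (fun y => Ph (g y)) - c / 2 := by
      have e1 : (fun y => g y ^ 2 / 2) = fun y => (1 / 2 : ℝ) * g y ^ 2 := by
        funext y; ring
      rw [avg_sub, e1, avg_const_mul, ← hc]
      ring
    rw [e] at hle
    linarith
  · -- the termwise comparison
    have hb := bc_pos (k + 1)
    have h1 : avg (fun y => (g y ^ 2) ^ (k + 2)) ≤ c ^ (k + 2) + K := by
      have h2 : ∀ y, (g y ^ 2) ^ (k + 2) ≤ c ^ (k + 2) +
          (((k + 1 : ℕ) : ℝ) + 1) * c ^ (k + 1) * (g y ^ 2 - c) + (g y ^ 2 - c) ^ 2 / (1 - c) ^ 2 :=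
        fun y => pow_bregman (hτ0 y) (hτ1 y).le hc0 hc1 (k + 1)
      have h3 := avg_mono h2
      have e1 : avg (fun y => c ^ (k + 2) +
          (((k + 1 : ℕ) : ℝ) + 1) * c ^ (k + 1) * (g y ^ 2 - c) + (g y ^ 2 - c) ^ 2 / (1 - c) ^ 2) =
          c ^ (k + 2) + K := by
        have e2 : (fun y => (g y ^ 2 - c) ^ 2 / (1 - c) ^ 2) =
            fun y => (1 / (1 - c) ^ 2) * (g y ^ 2 - c) ^ 2 := by
          funext y; ring
        rw [avg_add, avg_add, avg_const, avg_const_mul, avg_sub, avg_const, e2, avg_const_mul, ← hc, ← hV, hK]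
        ring
      rw [e1] at h3
      exact h3
    have e2 : (fun y => bc (k + 1) * (g y ^ 2) ^ (k + 2)) =
        fun y => bc (k + 1) * (g y ^ 2) ^ (k + 2) := rfl
    rw [avg_const_mul]
    have := mul_le_mul_of_nonneg_left h1 hb.le
    linarith

end Vale.Agent.Lib.P322HN
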