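import Mathlib

/-!
# The numeric core of the high noise estimate
-/

namespace Vale.Agent.Lib.P322HN

open Real

/-- Lower bound for the right hand side. -/
lemma hn_rhs {A y q r : ℝ} (hA0 : 0 ≤ A) (hA1 : A ≤ 1 / 4) (hr0 : 0 ≤ r) (hr1 : r ≤ 7 / 40)
    (hy : 0 ≤ y) (hq : 0 ≤ q) (hsum : q + y = 1 - A ^ 2) :
    ((969375 : ℝ) / 1000000 - A ^ 2) ^ 2 * ((316 : ℝ) / 1000 * A ^ 2 + 4846 / 10000 * y) ≤
      (1 - (A ^ 2 + r ^ 2 * q + r ^ 4 * y)) ^ 2 *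
        ((1 / 2 - (1 / 6) / (1 - (A ^ 2 + r ^ 2))) * A ^ 2 + (1 / 2) * (1 - r ^ 2) * y) := by
  have hs0 : 0 ≤ r ^ 2 := sq_nonneg r
  have hs1 : r ^ 2 ≤ 49 / 1600 := by nlinarith
  have hu0 : 0 ≤ A ^ 2 := sq_nonneg A
  have hu1 : A ^ 2 ≤ 1 / 16 := by nlinarith
  -- the first factor
  have e4 : r ^ 4 = r ^ 2 * r ^ 2 := by ring
  have h1 : r ^ 2 * q + r ^ 4 * y ≤ 49 / 1600 := by
    rw [e4]
    have h2 : r ^ 2 * r ^ 2 * y ≤ r ^ 2 * y := by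
      have : r ^ 2 * y * r ^ 2 ≤ r ^ 2 * y * 1 :=
        mul_le_mul_of_nonneg_left (by linarith) (by positivity)
      nlinarith
    have h3 : r ^ 2 * (q + y) ≤ 49 / 1600 := by
      have : q + y ≤ 1 := by nlinarith
      nlinarith
    nlinarith
  have hN : (969375 : ℝ) / 1000000 - A ^ 2 ≤ 1 - (A ^ 2 + r ^ 2 * q + r ^ 4 * y) := by
    norm_num at h1 ⊢
    linarith
  have hN0 : (0 : ℝ) ≤ 969375 / 1000000 - A ^ 2 := by linarith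
  have hNsq := pow_le_pow_left₀ hN0 hN 2
  -- the second factor
  have hden : (906875 : ℝ) / 1000000 ≤ 1 - (A ^ 2 + r ^ 2) := by
    norm_num at hs1 hu1 ⊢
    linarith
  have hinv : (1 / 6 : ℝ) / (1 - (A ^ 2 + r ^ 2)) ≤ 184 / 1000 := by
    rw [div_le_iff₀ (by linarith)]
    nlinarith
  have hB : (316 : ℝ) / 1000 * A ^ 2 + 4846 / 10000 * y ≤
      (1 / 2 - (1 / 6) / (1 - (A ^ 2 + r ^ 2))) * A ^ 2 + (1 / 2) * (1 - r ^ 2) * y := by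
    have h5 : (316 : ℝ) / 1000 ≤ 1 / 2 - (1 / 6) / (1 - (A ^ 2 + r ^ 2)) := by linarith
    have h6 := mul_le_mul_of_nonneg_right h5 hu0
    have h7 : (4846 : ℝ) / 10000 ≤ (1 / 2) * (1 - r ^ 2) := by
      norm_num at hs1 ⊢
      linarith
    have h8 := mul_le_mul_of_nonneg_right h7 hy
    linarith
  have hB0 : (0 : ℝ) ≤ 316 / 1000 * A ^ 2 + 4846 / 10000 * y := by positivity
  exact mul_le_mul hNsq hB hB0 (by positivity)


lemma fac_bound {u : ℝ} (hu0 : 0 ≤ u) (hu1 : u ≤ 1 / 16) :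
    (8224 : ℝ) / 10000 ≤ ((969375 : ℝ) / 1000000 - u) ^ 2 := by
  have h : (906875 : ℝ) / 1000000 ≤ 969375 / 1000000 - u := by linarith
  have h2 := pow_le_pow_left₀ (by norm_num) h 2
  norm_num at h2 ⊢
  linarith

lemma sq_bound_of {r : ℝ} (hr0 : 0 ≤ r) (hr1 : r ≤ 7 / 40) : r ^ 2 ≤ 49 / 1600 := by
  have := pow_le_pow_left₀ hr0 hr1 2
  norm_num at this ⊢
  linarith

lemma far_X {p q d r : ℝ} (hq : 0 ≤ q) (hd : 0 ≤ d) (hr0 : 0 ≤ r) (hr1 : r ≤ 7 / 40)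
    (hp3 : p ≤ 14143 / 10000 * q ^ 2) :
    p + (79 / 10) * r * q * d + 9 * r ^ 2 * d ^ 2 ≤ 7 / 4 * (q ^ 2 + d ^ 2) := by
  have hqd : 0 ≤ q * d := mul_nonneg hq hd
  have hrq : r * (q * d) ≤ 7 / 40 * (q * d) := mul_le_mul_of_nonneg_right hr1 hqd
  have hsd : r ^ 2 * d ^ 2 ≤ 49 / 1600 * d ^ 2 :=
    mul_le_mul_of_nonneg_right (sq_bound_of hr0 hr1) (sq_nonneg d)
  have e : (79 / 10) * r * q * d = (79 / 10) * (r * (q * d)) := by ring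
  have e2 : 9 * r ^ 2 * d ^ 2 = 9 * (r ^ 2 * d ^ 2) := by ring
  rw [e, e2]
  have h := sq_nonneg (q - 206 / 100 * d)
  nlinarith only [h, hqd, hrq, hsd, hp3, sq_nonneg d]

lemma far_Y {p q d r : ℝ} (hq : 0 ≤ q) (hd : 0 ≤ d) (hr0 : 0 ≤ r) (hr1 : r ≤ 7 / 40)
    (hp3 : p ≤ 14143 / 10000 * q ^ 2) :
    3 * p + 27 * r * q * d + 9 * r ^ 2 * d ^ 2 ≤ 54 / 10 * (q ^ 2 + d ^ 2) := by
  have hqd : 0 ≤ q * d := mul_nonneg hq hd
  have hrq : r * (q * d) ≤ 7 / 40 * (q * d) := mul_le_mul_of_nonneg_right hr1 hqd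
  have hsd : r ^ 2 * d ^ 2 ≤ 49 / 1600 * d ^ 2 :=
    mul_le_mul_of_nonneg_right (sq_bound_of hr0 hr1) (sq_nonneg d)
  have e : 27 * r * q * d = 27 * (r * (q * d)) := by ring
  have e2 : 9 * r ^ 2 * d ^ 2 = 9 * (r ^ 2 * d ^ 2) := by ring
  rw [e, e2]
  have h := sq_nonneg (q - 205 / 100 * d)
  nlinarith only [h, hqd, hrq, hsd, hp3, sq_nonneg d]

lemma far_y {A u y : ℝ} (hu : u = A ^ 2) (hA0 : 0 ≤ A) (hA1 : A ≤ 1 / 4) (h1 : A - u ≤ y)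
    (h2 : 2 / 25 - u < y) : 6412 / 10000 * u + 1813 / 100000 + 1 / 100000 ≤ 3665 / 10000 * y := by
  by_cases hA8 : A ≤ 8 / 100
  · have : u ≤ 64 / 10000 := by
      rw [hu]
      have := pow_le_pow_left₀ hA0 hA8 2
      norm_num at this ⊢
      linarith
    nlinarith only [this, h2]
  · push Not at hA8
    have h3 : 0 ≤ (A - 8 / 100) * (1 / 4 - A) := mul_nonneg (by linarith) (by linarith)
    subst hu
    nlinarith only [h3, h1]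

/-- The far case. -/
lemma hn_far {A p q d r : ℝ} (hA0 : 0 ≤ A) (hA1 : A ≤ 1 / 4) (hr0 : 0 ≤ r) (hr1 : r ≤ 7 / 40)
    (hq : 0 ≤ q) (hd : 0 ≤ d) (hp : 0 ≤ p) (hsum : q ^ 2 + d ^ 2 = 1 - A ^ 2)
    (hW1 : q ^ 2 ≤ 1 - A) (hp2 : p ^ 2 ≤ 2 * (q ^ 2) ^ 2) (hfar : q ^ 2 < 23 / 25) :
    (1933 / 10000) * (4 * A ^ 2 * (q ^ 2 + r ^ 2 * d ^ 2) +
        r ^ 2 * (p + (79 / 10) * r * q * d + 9 * r ^ 2 * d ^ 2) ^ 2 +
        4 * A * r ^ 2 * (3 * p * d + 27 * r * q * d ^ 2 + 9 * r ^ 2 * d ^ 2 * d)) ≤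
      ((969375 : ℝ) / 1000000 - A ^ 2) ^ 2 * ((316 : ℝ) / 1000 * A ^ 2 + 4846 / 10000 * d ^ 2) := by
  have hs0 : 0 ≤ r ^ 2 := sq_nonneg r
  have hs1 : r ^ 2 ≤ 49 / 1600 := sq_bound_of hr0 hr1
  have hqd : 0 ≤ q * d := mul_nonneg hq hd
  have hu0 : 0 ≤ A ^ 2 := sq_nonneg A
  have hu1 : A ^ 2 ≤ 1 / 16 := by
    have := pow_le_pow_left₀ hA0 hA1 2
    norm_num at this ⊢
    linarith
  have hm1 : q ^ 2 + d ^ 2 ≤ 1 := by linarith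
  have hm0 : 0 ≤ q ^ 2 + d ^ 2 := by positivity
  -- bound for `p`
  have hp3 : p ≤ 14143 / 10000 * q ^ 2 := by
    have : p ^ 2 ≤ (14143 / 10000 * q ^ 2) ^ 2 := by
      have h := sq_nonneg (q ^ 2)
      nlinarith only [h, hp2]
    exact abs_le_of_sq_le_sq' this (by positivity) |>.2
  -- the middle term
  have hX := far_X hq hd hr0 hr1 hp3
  have hX0 : 0 ≤ p + (79 / 10) * r * q * d + 9 * r ^ 2 * d ^ 2 := by
    have : 0 ≤ r * q * d := mul_nonneg (mul_nonneg hr0 hq) hd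
    positivity
  have hX1 : p + (79 / 10) * r * q * d + 9 * r ^ 2 * d ^ 2 ≤ 7 / 4 := by linarith
  have hXsq := pow_le_pow_left₀ hX0 hX1 2
  have hT2 : r ^ 2 * (p + (79 / 10) * r * q * d + 9 * r ^ 2 * d ^ 2) ^ 2 ≤
      49 / 1600 * (7 / 4) ^ 2 :=
    mul_le_mul hs1 hXsq (sq_nonneg _) (by norm_num)
  -- the cubic term
  have hY := far_Y hq hd hr0 hr1 hp3
  have hY1 : 3 * p + 27 * r * q * d + 9 * r ^ 2 * d ^ 2 ≤ 54 / 10 := by linarith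
  have hY0 : 0 ≤ 3 * p + 27 * r * q * d + 9 * r ^ 2 * d ^ 2 := by
    have : 0 ≤ r * q * d := mul_nonneg (mul_nonneg hr0 hq) hd
    positivity
  have hAd0 : 0 ≤ A * d := mul_nonneg hA0 hd
  have hT3 : 4 * A * r ^ 2 * (3 * p * d + 27 * r * q * d ^ 2 + 9 * r ^ 2 * d ^ 2 * d) ≤
      6615 / 10000 * (A * d) := by
    have e : 4 * A * r ^ 2 * (3 * p * d + 27 * r * q * d ^ 2 + 9 * r ^ 2 * d ^ 2 * d) =
        4 * (A * d) * (r ^ 2 * (3 * p + 27 * r * q * d + 9 * r ^ 2 * d ^ 2)) := by ring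
    rw [e]
    have h1 : r ^ 2 * (3 * p + 27 * r * q * d + 9 * r ^ 2 * d ^ 2) ≤ 49 / 1600 * (54 / 10) :=
      mul_le_mul hs1 hY1 hY0 (by norm_num)
    have h2 := mul_le_mul_of_nonneg_left h1 (by positivity : 0 ≤ 4 * (A * d))
    refine h2.trans (le_of_eq ?_)
    ring
  have hAd : A * d ≤ A ^ 2 + d ^ 2 / 4 := by
    have h := sq_nonneg (A - d / 2)
    nlinarith only [h]
  have hT1 : 4 * A ^ 2 * (q ^ 2 + r ^ 2 * d ^ 2) ≤ 4 * A ^ 2 * (q ^ 2 + 49 / 1600 * d ^ 2) :=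
    mul_le_mul_of_nonneg_left (by
      have := mul_le_mul_of_nonneg_right hs1 (sq_nonneg d)
      linarith) (by positivity)
  -- first factor of the right side
  have hfac := fac_bound hu0 hu1
  have hB0 : (0 : ℝ) ≤ 316 / 1000 * A ^ 2 + 4846 / 10000 * d ^ 2 := by positivity
  have hR := mul_le_mul_of_nonneg_right hfac hB0
  refine le_trans ?_ hR
  -- reduce to one inequality in `A^2`, `d^2`
  have hq2 : q ^ 2 = 1 - A ^ 2 - d ^ 2 := by linarith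
  have h1 : A - A ^ 2 ≤ d ^ 2 := by linarith
  have h2 : 2 / 25 - A ^ 2 < d ^ 2 := by linarith
  have hyA := far_y rfl hA0 hA1 h1 h2
  have hy0 : 0 ≤ d ^ 2 := sq_nonneg d
  have huy : 0 ≤ A ^ 2 * d ^ 2 := mul_nonneg hu0 hy0
  have huu : 0 ≤ A ^ 2 * A ^ 2 := mul_nonneg hu0 hu0
  have hT3' : 4 * A * r ^ 2 * (3 * p * d + 27 * r * q * d ^ 2 + 9 * r ^ 2 * d ^ 2 * d) ≤
      6615 / 10000 * (A ^ 2 + d ^ 2 / 4) :=
    hT3.trans (mul_le_mul_of_nonneg_left hAd (by norm_num))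
  have hT1v : 4 * A ^ 2 * (q ^ 2 + 49 / 1600 * d ^ 2) =
      4 * A ^ 2 - 4 * (A ^ 2 * A ^ 2) - (1551 / 400) * (A ^ 2 * d ^ 2) := by
    rw [hq2]; ring
  rw [hT1v] at hT1
  generalize 4 * A ^ 2 * (q ^ 2 + r ^ 2 * d ^ 2) = X1 at hT1 ⊢
  generalize r ^ 2 * (p + (79 / 10) * r * q * d + 9 * r ^ 2 * d ^ 2) ^ 2 = X2 at hT2 ⊢
  generalize 4 * A * r ^ 2 * (3 * p * d + 27 * r * q * d ^ 2 + 9 * r ^ 2 * d ^ 2 * d) = X3 at hT3' ⊢
  generalize A ^ 2 * A ^ 2 = u2 at huu hT1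
  generalize A ^ 2 * d ^ 2 = uy at huy hT1
  generalize A ^ 2 = u at *
  generalize d ^ 2 = y at *
  norm_num at hT2 hyA hT3' ⊢
  linarith

/-- The near case. -/
lemma hn_near {A p q d r : ℝ} (hA0 : 0 ≤ A) (hr0 : 0 ≤ r) (hr1 : r ≤ 7 / 40)
    (hq : 0 ≤ q) (hd : 0 ≤ d) (hp : 0 ≤ p) (hsum : q ^ 2 + d ^ 2 = 1 - A ^ 2)
    (hW1 : q ^ 2 ≤ 1 - A) (hp2 : p ^ 2 ≤ 22 / 5 * d ^ 2) (hnear : 23 / 25 ≤ q ^ 2) :
    (1933 / 10000) * (4 * A ^ 2 * (q ^ 2 + r ^ 2 * d ^ 2) +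
        r ^ 2 * (p + (79 / 10) * r * q * d + 9 * r ^ 2 * d ^ 2) ^ 2 +
        4 * A * r ^ 2 * (3 * p * d + 27 * r * q * d ^ 2 + 9 * r ^ 2 * d ^ 2 * d)) ≤
      ((969375 : ℝ) / 1000000 - A ^ 2) ^ 2 * ((316 : ℝ) / 1000 * A ^ 2 + 4846 / 10000 * d ^ 2) := by
  have hs0 : 0 ≤ r ^ 2 := sq_nonneg r
  have hs1 : r ^ 2 ≤ 49 / 1600 := sq_bound_of hr0 hr1
  have hA8 : A ≤ 2 / 25 := by linarith
  have hu0 : 0 ≤ A ^ 2 := sq_nonneg A
  have hu1 : A ^ 2 ≤ 4 / 625 := by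
    have := pow_le_pow_left₀ hA0 hA8 2
    norm_num at this ⊢
    linarith
  have hd8 : d ^ 2 ≤ 2 / 25 := by linarith
  have hd3 : d ≤ 283 / 1000 := by
    have : d ^ 2 ≤ (283 / 1000) ^ 2 := by
      norm_num at hd8 ⊢
      linarith
    exact abs_le_of_sq_le_sq' this (by norm_num) |>.2
  have hq1 : q ≤ 1 := by
    have : q ^ 2 ≤ 1 ^ 2 := by
      have := sq_nonneg d
      rw [one_pow]
      linarith
    exact abs_le_of_sq_le_sq' this (by norm_num) |>.2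
  have hp3 : p ≤ 21 / 10 * d := by
    have : p ^ 2 ≤ (21 / 10 * d) ^ 2 := by
      have h := sq_nonneg d
      nlinarith only [h, hp2]
    exact abs_le_of_sq_le_sq' this (by positivity) |>.2
  have hqd : q * d ≤ 1 * d := mul_le_mul_of_nonneg_right hq1 hd
  have hrqd : r * q * d ≤ 7 / 40 * d := by
    have h1 : r * (q * d) ≤ 7 / 40 * (q * d) := mul_le_mul_of_nonneg_right hr1 (mul_nonneg hq hd)
    have h2 : 7 / 40 * (q * d) ≤ 7 / 40 * (1 * d) := mul_le_mul_of_nonneg_left hqd (by norm_num)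
    have e : r * q * d = r * (q * d) := by ring
    rw [e]
    linarith
  have hsd : r ^ 2 * d ^ 2 ≤ 49 / 1600 * d ^ 2 := mul_le_mul_of_nonneg_right hs1 (sq_nonneg d)
  have hd2 : d ^ 2 ≤ 283 / 1000 * d := by
    have : d * d ≤ 283 / 1000 * d := mul_le_mul_of_nonneg_right hd3 hd
    nlinarith only [this]
  have hX : p + (79 / 10) * r * q * d + 9 * r ^ 2 * d ^ 2 ≤ 357 / 100 * d := by
    have e : (79 / 10) * r * q * d = (79 / 10) * (r * q * d) := by ring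
    have e2 : 9 * r ^ 2 * d ^ 2 = 9 * (r ^ 2 * d ^ 2) := by ring
    rw [e, e2]
    norm_num at hsd hd2 hrqd hp3 ⊢
    linarith
  have hrqd0 : 0 ≤ r * q * d := mul_nonneg (mul_nonneg hr0 hq) hd
  have hX0 : 0 ≤ p + (79 / 10) * r * q * d + 9 * r ^ 2 * d ^ 2 := by positivity
  have hXsq := pow_le_pow_left₀ hX0 hX 2
  have hT2 : r ^ 2 * (p + (79 / 10) * r * q * d + 9 * r ^ 2 * d ^ 2) ^ 2 ≤ 4 / 10 * d ^ 2 := by
    have h1 := mul_le_mul hs1 hXsq (sq_nonneg _) (by norm_num)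
    have h := sq_nonneg d
    refine h1.trans ?_
    nlinarith only [h]
  have hY : 3 * p * d + 27 * r * q * d ^ 2 + 9 * r ^ 2 * d ^ 2 * d ≤ 112 / 10 * d ^ 2 := by
    have h1 : p * d ≤ (21 / 10 * d) * d := mul_le_mul_of_nonneg_right hp3 hd
    have h2 : (r * q * d) * d ≤ (7 / 40 * d) * d := mul_le_mul_of_nonneg_right hrqd hd
    have h3 : (r ^ 2 * d ^ 2) * d ≤ (49 / 1600 * d ^ 2) * d := mul_le_mul_of_nonneg_right hsd hd
    have h4 : (49 / 1600 * d ^ 2) * d ≤ (49 / 1600 * d ^ 2) * (283 / 1000) :=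
      mul_le_mul_of_nonneg_left hd3 (by positivity)
    have h := sq_nonneg d
    nlinarith only [h1, h2, h3, h4, h]
  have hT3 : 4 * A * r ^ 2 * (3 * p * d + 27 * r * q * d ^ 2 + 9 * r ^ 2 * d ^ 2 * d) ≤
      11 / 100 * d ^ 2 := by
    have hY0 : 0 ≤ 3 * p * d + 27 * r * q * d ^ 2 + 9 * r ^ 2 * d ^ 2 * d := by
      have : 0 ≤ r * q * d ^ 2 := by positivity
      positivity
    have h1 : 4 * A * r ^ 2 ≤ 4 * (2 / 25) * (49 / 1600) := by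
      have : A * r ^ 2 ≤ 2 / 25 * (49 / 1600) := mul_le_mul hA8 hs1 hs0 (by norm_num)
      linarith
    have h2 := mul_le_mul h1 hY hY0 (by norm_num)
    have h := sq_nonneg d
    refine h2.trans ?_
    nlinarith only [h]
  -- the term in `A^2`
  have hAd : A * (23 / 25) ≤ d ^ 2 := by
    have h0 : A * (1 - A) ≤ d ^ 2 := by nlinarith only [hsum, hW1]
    have h1 : A * (23 / 25) ≤ A * (1 - A) := mul_le_mul_of_nonneg_left (by linarith) hA0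
    linarith
  have hA2 : A ^ 2 ≤ 9 / 100 * d ^ 2 := by
    have h1 : A * (A * (23 / 25)) ≤ (2 / 25) * d ^ 2 := mul_le_mul hA8 hAd
      (mul_nonneg hA0 (by norm_num)) (by norm_num)
    nlinarith only [h1, sq_nonneg d]
  have hT1 : 4 * A ^ 2 * (q ^ 2 + r ^ 2 * d ^ 2) ≤ 36 / 100 * d ^ 2 := by
    have h1 : q ^ 2 + r ^ 2 * d ^ 2 ≤ 1 := by
      have h3 := sq_nonneg d
      nlinarith only [hsum, hsd, hu0, h3]
    have h2 : 4 * A ^ 2 * (q ^ 2 + r ^ 2 * d ^ 2) ≤ 4 * A ^ 2 * 1 :=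
      mul_le_mul_of_nonneg_left h1 (by positivity)
    linarith
  have hfac : (9 : ℝ) / 10 ≤ ((969375 : ℝ) / 1000000 - A ^ 2) ^ 2 := by
    have h : (96 : ℝ) / 100 ≤ 969375 / 1000000 - A ^ 2 := by
      norm_num at hu1 ⊢
      linarith
    have h2 := pow_le_pow_left₀ (by norm_num) h 2
    norm_num at h2 ⊢
    linarith
  have hB0 : (0 : ℝ) ≤ 316 / 1000 * A ^ 2 + 4846 / 10000 * d ^ 2 := by positivity
  have hR := mul_le_mul_of_nonneg_right hfac hB0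
  refine le_trans ?_ hR
  have h := sq_nonneg d
  nlinarith only [hT1, hT2, hT3, h, hu0]

/-- The numeric core. -/
theorem hn_numeric {A W D V r : ℝ} (hA0 : 0 ≤ A) (hA1 : A ≤ 1 / 4) (hr0 : 0 ≤ r) (hr1 : r ≤ 7 / 40)
    (hW : 0 ≤ W) (hD : 0 ≤ D) (hsum : W + D = 1 - A ^ 2) (hW1 : W ≤ 1 - A) (hV0 : 0 ≤ V)
    (hV1 : V ≤ 2 * W ^ 2) (hV2 : 23 / 25 ≤ W → V ≤ 22 / 5 * D) :
    (1933 / 10000) * (4 * A ^ 2 * (W + r ^ 2 * D) +
        r ^ 2 * (√V + (79 / 10) * r * √W * √D + 9 * r ^ 2 * D) ^ 2 +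
        4 * A * r ^ 2 * (3 * √V * √D + 27 * r * √W * D + 9 * r ^ 2 * D * √D)) ≤
      (1 - (A ^ 2 + r ^ 2 * W + r ^ 4 * D)) ^ 2 *
        ((1 / 2 - (1 / 6) / (1 - (A ^ 2 + r ^ 2))) * A ^ 2 + (1 / 2) * (1 - r ^ 2) * D) := by
  obtain ⟨p, hp⟩ : ∃ p, p = √V := ⟨_, rfl⟩
  obtain ⟨q, hq⟩ : ∃ q, q = √W := ⟨_, rfl⟩
  obtain ⟨d, hd⟩ : ∃ d, d = √D := ⟨_, rfl⟩
  have hp0 : 0 ≤ p := by rw [hp]; exact Real.sqrt_nonneg _
  have hq0 : 0 ≤ q := by rw [hq]; exact Real.sqrt_nonneg _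
  have hd0 : 0 ≤ d := by rw [hd]; exact Real.sqrt_nonneg _
  have hp2 : p ^ 2 = V := by rw [hp]; exact Real.sq_sqrt hV0
  have hq2 : q ^ 2 = W := by rw [hq]; exact Real.sq_sqrt hW
  have hd2 : d ^ 2 = D := by rw [hd]; exact Real.sq_sqrt hD
  rw [← hp, ← hq, ← hd]
  subst hq2 hd2 hp2
  have hrhs := hn_rhs (q := q ^ 2) (y := d ^ 2) hA0 hA1 hr0 hr1 (sq_nonneg d) (sq_nonneg q) hsum
  refine le_trans ?_ hrhs
  by_cases h : 23 / 25 ≤ q ^ 2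
  · exact hn_near hA0 hr0 hr1 hq0 hd0 hp0 hsum hW1 (hV2 h) h
  · push Not at h
    exact hn_far hA0 hA1 hr0 hr1 hq0 hd0 hp0 hsum hW1 hV1 h

end Vale.Agent.Lib.P322HN
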