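import Vale.Agent.Lib.P322HN.Moments
import Vale.Agent.Lib.P322HN.Jensen
import Vale.Agent.Lib.P322HN.Numeric

/-!
# Courtade-Kumar for near balanced functions at high noise
-/

namespace Vale.Agent.Lib.P322HN

open Finset Real
open Vale.Agent.Lib.P322 Vale.Agent.Lib.P322B

variable {n : ℕ}

lemma Ph_abs (t : ℝ) : Ph |t| = Ph t := by
  rcases abs_cases t with ⟨h, _⟩ | ⟨h, _⟩
  · rw [h]
  · rw [h]
    unfold Ph
    have e1 : 1 + -t = 1 - t := by ring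
    have e2 : 1 - -t = 1 + t := by ring
    rw [e1, e2]
    ring

/-- The real variable part of the combination. -/
lemma hn_core_real {a W D V ρ c Var PG : ℝ} (h0 : 0 ≤ ρ) (h1 : ρ ≤ 7 / 40) (ha : |a| ≤ 1 / 4)
    (hW0 : 0 ≤ W) (hD0 : 0 ≤ D) (hsum : W + D = 1 - |a| ^ 2) (hW1 : W ≤ 1 - |a|) (hV0 : 0 ≤ V)
    (hV1 : V ≤ 2 * W ^ 2) (hV2 : 23 / 25 ≤ W → V ≤ 22 / 5 * D)
    (hc0 : 0 ≤ c) (hc1 : c ≤ |a| ^ 2 + ρ ^ 2 * W + ρ ^ 4 * D) (hΛ0 : 0 ≤ Var)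
    (hVar : Var ≤ ρ ^ 2 * (4 * |a| ^ 2 * (W + ρ ^ 2 * D) +
        ρ ^ 2 * (√V + (79 / 10) * ρ * √W * √D + 9 * ρ ^ 2 * D) ^ 2 +
        4 * |a| * ρ ^ 2 * (3 * √V * √D + 27 * ρ * √W * D + 9 * ρ ^ 2 * D * √D)))
    (hJ : PG ≤ Ph (√c) + B2 * (Var / (1 - c) ^ 2)) :
    PG ≤ Ph a + Ph ρ := by
  have hAa : |a| ^ 2 = a ^ 2 := sq_abs a
  have hρ2 : ρ ^ 2 ≤ 1 / 25 := by nlinarith
  have hA0 : 0 ≤ |a| := abs_nonneg a
  have hA2 : |a| ^ 2 ≤ 9 / 100 := by nlinarith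
  have hN := hn_numeric (A := |a|) (W := W) (D := D) (V := V) (r := ρ) hA0 ha h0 h1 hW0 hD0 hsum hW1
    hV0 hV1 hV2
  generalize hΛ : 4 * |a| ^ 2 * (W + ρ ^ 2 * D) +
      ρ ^ 2 * (√V + (79 / 10) * ρ * √W * √D + 9 * ρ ^ 2 * D) ^ 2 +
      4 * |a| * ρ ^ 2 * (3 * √V * √D + 27 * ρ * √W * D + 9 * ρ ^ 2 * D * √D) = Λ at hN hVar
  generalize hc₀ : |a| ^ 2 + ρ ^ 2 * W + ρ ^ 4 * D = c₀ at hN hc1
  generalize hκ : 1 / 2 - (1 / 6) / (1 - (|a| ^ 2 + ρ ^ 2)) = κ at hN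
  have hr : |a| ^ 2 + ρ ^ 2 ≤ 13 / 100 := by linarith
  have hdenpos : 0 < 1 - (|a| ^ 2 + ρ ^ 2) := by linarith
  have hκ0 : 0 ≤ κ := by
    rw [← hκ, sub_nonneg, div_le_iff₀ hdenpos]
    linarith
  have hρ3 : 0 ≤ 1 - ρ ^ 2 := by linarith
  have hc₀1 : c₀ < 1 := by
    have h3 : ρ ^ 2 * W ≤ 1 / 25 * 1 := by
      have : W ≤ 1 := by linarith
      exact mul_le_mul hρ2 this hW0 (by norm_num)
    have h4 : ρ ^ 4 * D ≤ 1 / 625 * 1 := by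
      have h5 : ρ ^ 4 ≤ 1 / 625 := by nlinarith [sq_nonneg ρ]
      have h6 : D ≤ 1 := by nlinarith
      exact mul_le_mul h5 h6 hD0 (by norm_num)
    rw [← hc₀]
    linarith
  have hpos : 0 < 1 - c := by linarith
  have hpos0 : 0 < 1 - c₀ := by linarith
  have hsq : (1 - c₀) ^ 2 ≤ (1 - c) ^ 2 := by
    apply pow_le_pow_left₀ hpos0.le
    linarith
  have hsq0 : 0 < (1 - c) ^ 2 := by positivity
  generalize hY : κ * |a| ^ 2 + (1 / 2) * (1 - ρ ^ 2) * D = Y at hN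
  have hY0 : 0 ≤ Y := by
    rw [← hY]
    positivity
  -- the remainder is paid by the surplus
  have hB : B2 * (Var / (1 - c) ^ 2) ≤ ρ ^ 2 * Y := by
    have hB1 : B2 * Var ≤ (1933 / 10000) * (ρ ^ 2 * Λ) :=
      mul_le_mul B2_le hVar hΛ0 (by norm_num)
    have hB2 : (1933 / 10000) * (ρ ^ 2 * Λ) ≤ ρ ^ 2 * ((1 - c₀) ^ 2 * Y) := by
      have := mul_le_mul_of_nonneg_left hN (sq_nonneg ρ)
      calc (1933 / 10000) * (ρ ^ 2 * Λ) = ρ ^ 2 * ((1933 / 10000) * Λ) := by ring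
        _ ≤ _ := this
    have hB3 : ρ ^ 2 * ((1 - c₀) ^ 2 * Y) ≤ ρ ^ 2 * ((1 - c) ^ 2 * Y) :=
      mul_le_mul_of_nonneg_left (mul_le_mul_of_nonneg_right hsq hY0) (sq_nonneg ρ)
    have e : B2 * (Var / (1 - c) ^ 2) = (B2 * Var) / (1 - c) ^ 2 := by ring
    rw [e, div_le_iff₀ hsq0]
    have e2 : ρ ^ 2 * Y * (1 - c) ^ 2 = ρ ^ 2 * ((1 - c) ^ 2 * Y) := by ring
    rw [e2]
    linarith
  -- the surplus
  have hS := Ph_sqrt_surplus (p := a ^ 2) (q := ρ ^ 2) (c := c) (x := ρ ^ 2 * (1 - ρ ^ 2) * D)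
    (sq_nonneg a) (sq_nonneg ρ) hc0 (by rw [← hAa]; linarith)
    (by
      have e : a ^ 2 + ρ ^ 2 - a ^ 2 * ρ ^ 2 - ρ ^ 2 * (1 - ρ ^ 2) * D =
          a ^ 2 + ρ ^ 2 * (1 - a ^ 2) - ρ ^ 2 * (1 - ρ ^ 2) * D := by
        ring
      rw [e, ← hAa, ← hsum]
      have e2 : |a| ^ 2 + ρ ^ 2 * (W + D) - ρ ^ 2 * (1 - ρ ^ 2) * D =
          |a| ^ 2 + ρ ^ 2 * W + ρ ^ 4 * D := by ring
      rw [e2, hc₀]
      exact hc1)
    (by positivity)
  rw [Real.sqrt_sq_eq_abs, Real.sqrt_sq h0, Ph_abs] at hS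
  have e : -(a ^ 2 * ρ ^ 2 + ρ ^ 2 * (1 - ρ ^ 2) * D) / 2 + a ^ 2 * ρ ^ 2 / 6 / (1 - (a ^ 2 + ρ ^ 2)) +
      ρ ^ 2 * Y = 0 := by
    rw [← hY, ← hκ, hAa]
    ring
  have e3 : Ph a + Ph ρ - (a ^ 2 * ρ ^ 2 + ρ ^ 2 * (1 - ρ ^ 2) * D) / 2 +
      a ^ 2 * ρ ^ 2 / 6 / (1 - (a ^ 2 + ρ ^ 2)) =
      Ph a + Ph ρ + (-(a ^ 2 * ρ ^ 2 + ρ ^ 2 * (1 - ρ ^ 2) * D) / 2 +
        a ^ 2 * ρ ^ 2 / 6 / (1 - (a ^ 2 + ρ ^ 2))) := by ring
  rw [e3] at hS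
  linarith

/-- The combination of the analytic and the moment bounds. -/
theorem hn_Ph (F : Cube n → ℝ) (hF : ∀ y, F y ^ 2 = 1) {ρ : ℝ} (h0 : 0 ≤ ρ) (h1 : ρ ≤ 7 / 40)
    (ha : |avg F| ≤ 1 / 4) :
    avg (fun y => Ph (TT ρ F y)) ≤ Ph (avg F) + Ph ρ := by
  have hW0 : 0 ≤ lev1 F := lev1_nonneg F
  have hD0 : 0 ≤ DD F := DD_nonneg F
  have hDs : DD F = 1 - avg F ^ 2 - lev1 F := DD_sign hF
  have hsum : lev1 F + DD F = 1 - |avg F| ^ 2 := by rw [sq_abs, hDs]; ring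
  have hρ2 : ρ ^ 2 ≤ 1 / 25 := by nlinarith
  have h_l1 := avg_linForm (coef F)
  have h_l2 : avg (fun y => linForm (coef F) y ^ 2) = lev1 F := moment2 _
  have h_l3 : avg (fun y => linForm (coef F) y ^ 3) = 0 := moment3 _
  have h_l4 : avg (fun y => linForm (coef F) y ^ 4) ≤ 3 * lev1 F ^ 2 := by
    have h := moment4 (coef F)
    have h2 := sum_four_nonneg (coef F)
    rw [h]
    have e2 : ∑ i, coef F i ^ 2 = lev1 F := rfl
    rw [e2]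
    linarith
  have h_R1 := avg_TT_Rem ρ F
  have h_lR := avg_lin_mul_TT_Rem ρ F
  have h_R2 : avg (fun y => TT ρ (Rem F) y ^ 2) ≤ ρ ^ 4 * DD F := TT_Rem_sq (by linarith) F
  have h_R4 : avg (fun y => TT ρ (Rem F) y ^ 4) ≤ 81 * ρ ^ 8 * DD F ^ 2 := TT_Rem_four (by linarith) F
  have hg : (fun y => Ph (TT ρ F y)) =
      fun y => Ph (avg F + ρ * linForm (coef F) y + TT ρ (Rem F) y) := by
    funext y
    rw [TT_decomp]
  have habs : ∀ y, |avg F + ρ * linForm (coef F) y + TT ρ (Rem F) y| < 1 := by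
    intro y
    have h := abs_TT_lt_one hF (by linarith) h0 (by linarith) y
    rw [TT_decomp] at h
    exact h
  have hJ := avg_Ph_le (fun y => avg F + ρ * linForm (coef F) y + TT ρ (Rem F) y) habs
  have hVar := var_g_sq_le (a := avg F) (linForm (coef F)) (TT ρ (Rem F)) h0 hW0 hD0 h_l1 h_l2 h_l3
    h_l4 rfl h_R1 h_lR h_R2 h_R4
  have hc := avg_g_sq (a := avg F) (ρ := ρ) (linForm (coef F)) (TT ρ (Rem F)) h_l1 h_l2 h_R1 h_lR
  rw [hg]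
  refine hn_core_real (a := avg F) (W := lev1 F) (D := DD F)
    (V := avg (fun y => (linForm (coef F) y ^ 2 - lev1 F) ^ 2)) h0 h1 ha hW0 hD0 hsum
    (lev1_le_one_sub_abs hF) (avg_sq_nonneg _) (VV_le F) (fun h => VV_le_DD hF h)
    (avg_sq_nonneg _) ?_ (avg_sq_nonneg _) ?_ hJ
  · rw [hc, sq_abs]
    linarith
  · rw [sq_abs]
    exact hVar

/-- Binary entropy on the scale `(-1,1)`. -/
lemma binEntropy_half {t : ℝ} (h : |t| < 1) : binEntropy ((1 + t) / 2) = log 2 - Ph t := by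
  obtain ⟨h3, h4⟩ := abs_lt.1 h
  have h1 : 0 < 1 + t := by linarith
  have h2 : 0 < 1 - t := by linarith
  unfold Ph binEntropy
  have e1 : 1 - (1 + t) / 2 = (1 - t) / 2 := by ring
  rw [e1, Real.log_inv, Real.log_inv, Real.log_div h1.ne' two_ne_zero,
    Real.log_div h2.ne' two_ne_zero]
  ring

/-- Courtade-Kumar for near balanced functions at high noise. -/
theorem hn_ck (f : Cube n → Bool) {ε : ℝ} (h0 : 0 ≤ ε) (h1 : ε ≤ 1 / 2) (hρ : 1 - 2 * ε ≤ 7 / 40)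
    (ha : |2 * probTrue f - 1| ≤ 1 / 4) : mutualInfoBits f ε ≤ 1 - h2 ε := by
  have hl : 0 < log 2 := Real.log_pos (by norm_num)
  set F := signFn f with hF_def
  have hF : ∀ y, F y ^ 2 = 1 := signFn_sq f
  have hpr : avg F = 2 * probTrue f - 1 := by
    have e : F = fun y => 2 * indTrue f y - 1 := rfl
    rw [e, avg_sub, avg_const_mul, avg_const, ← probTrue_eq]
  set ρ := 1 - 2 * ε with hρ_def
  have hρ0 : 0 ≤ ρ := by rw [hρ_def]; linarith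
  have hk := hn_Ph F hF hρ0 hρ (by rw [hpr]; exact ha)
  have hε : (1 - ρ) / 2 = ε := by rw [hρ_def]; ring
  have hnoise : ∀ y, TT ρ F y = 2 * noiseOp ε (indTrue f) y - 1 := by
    intro y
    unfold TT
    rw [hε]
    have e : F = fun y => (fun y => 2 * indTrue f y) y - 1 := rfl
    rw [e, noiseOp_sub, noiseOp_const_mul, noiseOp_const]
  have hT : ∀ y, |TT ρ F y| < 1 := fun y =>
    abs_TT_lt_one hF (by rw [hpr]; linarith) hρ0 (by linarith) y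
  have hE : ∀ y, binEntropy (noiseOp ε (indTrue f) y) = log 2 - Ph (TT ρ F y) := by
    intro y
    rw [← binEntropy_half (hT y), hnoise]
    congr 1
    ring
  have hHent : Hent (indTrue f) ε = log 2 - avg (fun y => Ph (TT ρ F y)) := by
    unfold Hent
    simp only [hE]
    rw [avg_sub, avg_const]
  have hp : binEntropy (probTrue f) = log 2 - Ph (avg F) := by
    have hab : |avg F| < 1 := by rw [hpr]; linarith
    rw [← binEntropy_half hab, hpr]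
    congr 1
    ring
  have hε1 : binEntropy ε = log 2 - Ph ρ := by
    have hab : |ρ| < 1 := by
      rw [abs_of_nonneg hρ0]
      linarith
    rw [← binEntropy_half hab, hρ_def]
    have e : (1 + (1 - 2 * ε)) / 2 = 1 - ε := by ring
    rw [e, binEntropy_one_sub]
  have hm := mutualInfo_eq f h0 (by linarith)
  rw [hHent, hp] at hm
  rw [h2_eq, hε1]
  have key : mutualInfoBits f ε * log 2 ≤ Ph ρ := by
    rw [hm]
    linarith
  have e : 1 - (log 2 - Ph ρ) / log 2 = Ph ρ / log 2 := by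
    field_simp
    ring
  rw [e, le_div_iff₀ hl]
  exact key

end Vale.Agent.Lib.P322HN
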