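import Vale.Agent.Lib.P322.FKN

/-!
# Fourier facts on the cube for the high noise Courtade-Kumar estimate

`TT ρ G` is the noise operator at correlation `ρ`.  Everything is proved by induction on the
dimension, without a Fourier expansion.
-/

namespace Vale.Agent.Lib.P322HN

open Finset Real
open Vale.Agent.Lib.P322

variable {n : ℕ}

/-- The noise operator at correlation `ρ`. -/
noncomputable def TT (ρ : ℝ) (G : Cube n → ℝ) (y : Cube n) : ℝ := noiseOp ((1 - ρ) / 2) G y

lemma TT_halfSum (ρ : ℝ) (G : Cube (n + 1) → ℝ) (y : Cube n) :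
    TT ρ (halfSum G) y = (TT ρ (restr true G) y + TT ρ (restr false G) y) / 2 := by
  unfold TT
  have e : halfSum G = fun x => (1 / 2 : ℝ) * (restr true G x + restr false G x) := by
    funext x; unfold halfSum; ring
  rw [e, noiseOp_const_mul, noiseOp_add]
  ring

lemma TT_halfDiff (ρ : ℝ) (G : Cube (n + 1) → ℝ) (y : Cube n) :
    TT ρ (halfDiff G) y = (TT ρ (restr true G) y - TT ρ (restr false G) y) / 2 := by
  unfold TT
  have e : halfDiff G = fun x => (1 / 2 : ℝ) * (restr true G x - restr false G x) := by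
    funext x; unfold halfDiff; ring
  rw [e, noiseOp_const_mul, noiseOp_sub]
  ring

lemma TT_cons_true (ρ : ℝ) (G : Cube (n + 1) → ℝ) (y : Cube n) :
    TT ρ G (Fin.cons true y) = TT ρ (halfSum G) y + ρ * TT ρ (halfDiff G) y := by
  rw [TT_halfSum, TT_halfDiff]
  unfold TT
  rw [noiseOp_cons]
  simp only [if_true, Bool.false_eq_true, if_false]
  ring

lemma TT_cons_false (ρ : ℝ) (G : Cube (n + 1) → ℝ) (y : Cube n) :
    TT ρ G (Fin.cons false y) = TT ρ (halfSum G) y - ρ * TT ρ (halfDiff G) y := by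
  rw [TT_halfSum, TT_halfDiff]
  unfold TT
  rw [noiseOp_cons]
  simp only [if_true, Bool.true_eq_false, if_false]
  ring

lemma TT_zero_dim (ρ : ℝ) (G : Cube 0 → ℝ) (y : Cube 0) : TT ρ G y = G y := noiseOp_zero_dim _ _ _

lemma avg_TT_sq_succ (ρ : ℝ) (G : Cube (n + 1) → ℝ) :
    avg (fun y => TT ρ G y ^ 2) =
      avg (fun y => TT ρ (halfSum G) y ^ 2) + ρ ^ 2 * avg (fun y => TT ρ (halfDiff G) y ^ 2) := by
  rw [avg_succ (fun y => TT ρ G y ^ 2), avg_add_half, ← avg_const_mul, ← avg_add]
  congr 1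
  funext y
  simp only [restr, TT_cons_true, TT_cons_false]
  ring

lemma lev1_le_var : ∀ {n : ℕ} (G : Cube n → ℝ), lev1 G ≤ var G := by
  intro n
  induction n with
  | zero =>
      intro G
      have hv : var G = 0 := by
        unfold var
        rw [avg_zero_dim, avg_zero_dim]
        simp
      have hl : lev1 G = 0 := by simp [lev1]
      rw [hv, hl]
  | succ n ih =>
      intro G
      rw [lev1_succ, var_eq_succ]
      have h1 := ih (halfSum G)
      have h2 := var_nonneg (halfDiff G)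
      unfold var at h2
      linarith

/-- The basic level bound. -/
theorem TT_sq {ρ : ℝ} (hρ : ρ ^ 2 ≤ 1) : ∀ {n : ℕ} (G : Cube n → ℝ),
    avg (fun y => TT ρ G y ^ 2) ≤
      avg G ^ 2 + ρ ^ 2 * lev1 G + ρ ^ 4 * (var G - lev1 G) := by
  intro n
  induction n with
  | zero =>
      intro G
      have hv : var G = 0 := by
        unfold var
        rw [avg_zero_dim, avg_zero_dim]
        simp
      have hl : lev1 G = 0 := by simp [lev1]
      rw [hv, hl, avg_zero_dim, avg_zero_dim]
      simp [TT_zero_dim]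
  | succ n ih =>
      intro G
      rw [avg_TT_sq_succ, lev1_succ, var_eq_succ, ← avg_halfSum G]
      have h1 := ih (halfSum G)
      have h2 := ih (halfDiff G)
      have h3 := lev1_le_var (halfDiff G)
      have hv : var (halfDiff G) = avg (fun y => halfDiff G y ^ 2) - avg (halfDiff G) ^ 2 := rfl
      have h4 : 0 ≤ ρ ^ 2 := sq_nonneg ρ
      have h5 : ρ ^ 2 * (var (halfDiff G) - lev1 (halfDiff G)) *
          (1 - ρ ^ 2) ≥ 0 := by
        apply mul_nonneg (mul_nonneg h4 (by linarith)) (by linarith)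
      have h6 := mul_le_mul_of_nonneg_left h2 h4
      have e4 : ρ ^ 4 = ρ ^ 2 * ρ ^ 2 := by ring
      rw [e4] at h1 h6 ⊢
      nlinarith

/-- Cauchy-Schwarz for averages. -/
lemma avg_mul_sq_le (x y : Cube n → ℝ) :
    avg (fun t => x t * y t) ^ 2 ≤ avg (fun t => x t ^ 2) * avg (fun t => y t ^ 2) := by
  unfold avg
  have h := Finset.sum_mul_sq_le_sq_mul_sq (univ : Finset (Cube n)) x y
  have hp : (0 : ℝ) < 2 ^ n := by positivity
  rw [div_pow, div_mul_div_comm]
  have e : ((2 : ℝ) ^ n) ^ 2 = 2 ^ n * 2 ^ n := by ring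
  rw [e]
  exact div_le_div_of_nonneg_right h (by positivity)

lemma avg_sq_nonneg (x : Cube n → ℝ) : 0 ≤ avg (fun t => x t ^ 2) :=
  avg_nonneg (fun _ => sq_nonneg _)

/-- The `(2,4)` hypercontractive inequality in the form needed here. -/
theorem bonami4 {ρ σ : ℝ} (hσ : σ ^ 2 = 3 * ρ ^ 2) : ∀ {n : ℕ} (G : Cube n → ℝ),
    avg (fun y => TT ρ G y ^ 4) ≤ avg (fun y => TT σ G y ^ 2) ^ 2 := by
  intro n
  induction n with
  | zero =>
      intro G
      rw [avg_zero_dim, avg_zero_dim]
      simp only [TT_zero_dim]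
      apply le_of_eq
      ring
  | succ n ih =>
      intro G
      have h1 := ih (halfSum G)
      have h2 := ih (halfDiff G)
      obtain ⟨P, hP⟩ : ∃ P, P = avg (fun y => TT σ (halfSum G) y ^ 2) := ⟨_, rfl⟩
      obtain ⟨Q, hQ⟩ : ∃ Q, Q = avg (fun y => TT σ (halfDiff G) y ^ 2) := ⟨_, rfl⟩
      have hP0 : 0 ≤ P := by rw [hP]; exact avg_sq_nonneg _
      have hQ0 : 0 ≤ Q := by rw [hQ]; exact avg_sq_nonneg _
      rw [avg_TT_sq_succ σ G, ← hP, ← hQ, hσ]
      rw [← hP] at h1
      rw [← hQ] at h2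
      have e : avg (fun y => TT ρ G y ^ 4) =
          (avg (fun y => TT ρ (halfSum G) y ^ 4) +
            6 * ρ ^ 2 * avg (fun y => TT ρ (halfSum G) y ^ 2 * TT ρ (halfDiff G) y ^ 2)) +
            ρ ^ 4 * avg (fun y => TT ρ (halfDiff G) y ^ 4) := by
        rw [avg_succ (fun y => TT ρ G y ^ 4), avg_add_half, ← avg_const_mul, ← avg_const_mul,
          ← avg_add, ← avg_add]
        congr 1
        funext y
        simp only [restr, TT_cons_true, TT_cons_false]
        ring
      rw [e]
      -- Cauchy-Schwarz for the cross term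
      have hcs := avg_mul_sq_le (fun y => TT ρ (halfSum G) y ^ 2) (fun y => TT ρ (halfDiff G) y ^ 2)
      have hcs' : avg (fun y => TT ρ (halfSum G) y ^ 2 * TT ρ (halfDiff G) y ^ 2) ^ 2 ≤
          (P * Q) ^ 2 := by
        refine hcs.trans ?_
        have e1 : (fun y => (TT ρ (halfSum G) y ^ 2) ^ 2) = fun y => TT ρ (halfSum G) y ^ 4 := by
          funext y; ring
        have e2 : (fun y => (TT ρ (halfDiff G) y ^ 2) ^ 2) = fun y => TT ρ (halfDiff G) y ^ 4 := by
          funext y; ring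
        rw [e1, e2, mul_pow]
        apply mul_le_mul h1 h2 (avg_nonneg (fun y => by positivity)) (by positivity)
      have hX : avg (fun y => TT ρ (halfSum G) y ^ 2 * TT ρ (halfDiff G) y ^ 2) ≤ P * Q :=
        abs_le_of_sq_le_sq' hcs' (by positivity) |>.2
      have hr2 : 0 ≤ ρ ^ 2 := sq_nonneg ρ
      have h3 := mul_le_mul_of_nonneg_left hX (by positivity : 0 ≤ 6 * ρ ^ 2)
      have h4 := mul_le_mul_of_nonneg_left h2 (by positivity : 0 ≤ ρ ^ 4)
      have h5 : 0 ≤ ρ ^ 4 * Q ^ 2 := by positivity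
      nlinarith

end Vale.Agent.Lib.P322HN
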