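import Vale.Agent.Lib.P322HN.Sign

/-!
# The variance of `g²` for `g = a + ρ l + R`
-/

namespace Vale.Agent.Lib.P322HN

open Finset Real
open Vale.Agent.Lib.P322

variable {n : ℕ}

/-- Cauchy-Schwarz with norm bounds. -/
lemma abs_avg_mul_le {x y : Cube n → ℝ} {X Y : ℝ} (hX : 0 ≤ X) (hY : 0 ≤ Y)
    (hx : avg (fun t => x t ^ 2) ≤ X ^ 2) (hy : avg (fun t => y t ^ 2) ≤ Y ^ 2) :
    |avg (fun t => x t * y t)| ≤ X * Y := by
  have h := avg_mul_sq_le x y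
  have h1 := avg_sq_nonneg x
  have h2 := avg_sq_nonneg y
  have h3 : avg (fun t => x t * y t) ^ 2 ≤ (X * Y) ^ 2 := by
    calc avg (fun t => x t * y t) ^ 2 ≤ avg (fun t => x t ^ 2) * avg (fun t => y t ^ 2) := h
      _ ≤ X ^ 2 * Y ^ 2 := mul_le_mul hx hy h2 (by positivity)
      _ = (X * Y) ^ 2 := by ring
  exact abs_le_of_sq_le_sq h3 (by positivity)

/-- The triangle inequality for three functions in the form used here. -/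
lemma avg_add_three_sq_le {x y z : Cube n → ℝ} {X Y Z : ℝ} (hX : 0 ≤ X) (hY : 0 ≤ Y) (hZ : 0 ≤ Z)
    (hx : avg (fun t => x t ^ 2) ≤ X ^ 2) (hy : avg (fun t => y t ^ 2) ≤ Y ^ 2)
    (hz : avg (fun t => z t ^ 2) ≤ Z ^ 2) :
    avg (fun t => (x t + y t + z t) ^ 2) ≤ (X + Y + Z) ^ 2 := by
  have hxy := abs_le.1 (abs_avg_mul_le hX hY hx hy)
  have hxz := abs_le.1 (abs_avg_mul_le hX hZ hx hz)
  have hyz := abs_le.1 (abs_avg_mul_le hY hZ hy hz)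
  have e : (fun t => (x t + y t + z t) ^ 2) = fun t =>
      x t ^ 2 + y t ^ 2 + z t ^ 2 + 2 * (x t * y t) + 2 * (x t * z t) + 2 * (y t * z t) := by
    funext t; ring
  rw [e, avg_add, avg_add, avg_add, avg_add, avg_add, avg_const_mul, avg_const_mul, avg_const_mul]
  nlinarith [hxy.2, hxz.2, hyz.2]

section Main

variable (l R : Cube n → ℝ) {ρ W D V a : ℝ}

/-- Moments of `a + ρ l + R`: the mean of the square. -/
lemma avg_g_sq (h_l1 : avg l = 0) (h_l2 : avg (fun y => l y ^ 2) = W) (h_R1 : avg R = 0)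
    (h_lR : avg (fun y => l y * R y) = 0) :
    avg (fun y => (a + ρ * l y + R y) ^ 2) = a ^ 2 + ρ ^ 2 * W + avg (fun y => R y ^ 2) := by
  have e : (fun y => (a + ρ * l y + R y) ^ 2) = fun y =>
      a ^ 2 + (2 * a * ρ) * l y + (2 * a) * R y + ρ ^ 2 * l y ^ 2 + (2 * ρ) * (l y * R y) + R y ^ 2 := by
    funext y; ring
  rw [e, avg_add, avg_add, avg_add, avg_add, avg_add, avg_const, avg_const_mul, avg_const_mul,
    avg_const_mul, avg_const_mul, h_l1, h_l2, h_R1, h_lR]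
  ring

/-- The third moment in terms of centred pieces. -/
lemma third_eq (h_l3 : avg (fun y => l y ^ 3) = 0) (h_R1 : avg R = 0) :
    avg (fun y => (ρ * l y + R y) ^ 3) = 3 * ρ ^ 2 * avg (fun y => (l y ^ 2 - W) * R y) +
      3 * ρ * avg (fun y => l y * R y ^ 2) + avg (fun y => R y * R y ^ 2) := by
  have e : (fun y => (ρ * l y + R y) ^ 3) = fun y =>
      ρ ^ 3 * l y ^ 3 + (3 * ρ ^ 2) * ((l y ^ 2 - W) * R y) + (3 * ρ ^ 2 * W) * R y +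
        (3 * ρ) * (l y * R y ^ 2) + R y * R y ^ 2 := by
    funext y; ring
  rw [e, avg_add, avg_add, avg_add, avg_add, avg_const_mul, avg_const_mul, avg_const_mul,
    avg_const_mul, h_l3, h_R1]
  ring

/-- The third moment bound. -/
lemma third_bound (hρ : 0 ≤ ρ) (hW : 0 ≤ W) (hD : 0 ≤ D)
    (h_l2 : avg (fun y => l y ^ 2) = W) (h_l3 : avg (fun y => l y ^ 3) = 0)
    (hV : avg (fun y => (l y ^ 2 - W) ^ 2) = V) (hV0 : 0 ≤ V)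
    (h_R1 : avg R = 0)
    (h_R2 : avg (fun y => R y ^ 2) ≤ ρ ^ 4 * D) (h_R4 : avg (fun y => R y ^ 4) ≤ 81 * ρ ^ 8 * D ^ 2) :
    |avg (fun y => (ρ * l y + R y) ^ 3)| ≤
      ρ ^ 4 * (3 * √V * √D + 27 * ρ * √W * D + 9 * ρ ^ 2 * D * √D) := by
  have sqV : √V ^ 2 = V := Real.sq_sqrt hV0
  have sqW : √W ^ 2 = W := Real.sq_sqrt hW
  have sqD : √D ^ 2 = D := Real.sq_sqrt hD
  have nV := Real.sqrt_nonneg V
  have nW := Real.sqrt_nonneg W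
  have nD := Real.sqrt_nonneg D
  have nR2 : avg (fun y => R y ^ 2) ≤ (ρ ^ 2 * √D) ^ 2 := by
    have : (ρ ^ 2 * √D) ^ 2 = ρ ^ 4 * D := by
      rw [mul_pow, sqD]
      ring
    rw [this]
    exact h_R2
  have nRR : avg (fun y => (R y ^ 2) ^ 2) ≤ (9 * ρ ^ 4 * D) ^ 2 := by
    have e1 : (fun y => (R y ^ 2) ^ 2) = fun y => R y ^ 4 := by
      funext y; ring
    have e2 : (9 * ρ ^ 4 * D) ^ 2 = 81 * ρ ^ 8 * D ^ 2 := by ring
    rw [e1, e2]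
    exact h_R4
  have nl2 : avg (fun y => l y ^ 2) ≤ (√W) ^ 2 := by
    rw [sqW, h_l2]
  have nlW : avg (fun y => (l y ^ 2 - W) ^ 2) ≤ (√V) ^ 2 := by
    rw [sqV, hV]
  have p1 : (0 : ℝ) ≤ ρ ^ 2 * √D := by positivity
  have p2 : (0 : ℝ) ≤ 9 * ρ ^ 4 * D := by positivity
  have c1 := abs_le.1 (abs_avg_mul_le nV p1 nlW nR2)
  have c2 := abs_le.1 (abs_avg_mul_le nW p2 nl2 nRR)
  have c3 := abs_le.1 (abs_avg_mul_le p1 p2 nR2 nRR)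
  rw [third_eq l R (W := W) (ρ := ρ) h_l3 h_R1, abs_le]
  have a1 := mul_le_mul_of_nonneg_left c1.2 (by positivity : (0 : ℝ) ≤ 3 * ρ ^ 2)
  have a1' := mul_le_mul_of_nonneg_left c1.1 (by positivity : (0 : ℝ) ≤ 3 * ρ ^ 2)
  have a2 := mul_le_mul_of_nonneg_left c2.2 (by positivity : (0 : ℝ) ≤ 3 * ρ)
  have a2' := mul_le_mul_of_nonneg_left c2.1 (by positivity : (0 : ℝ) ≤ 3 * ρ)
  have q : (ρ ^ 4 * (3 * √V * √D + 27 * ρ * √W * D + 9 * ρ ^ 2 * D * √D)) =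
      3 * ρ ^ 2 * (√V * (ρ ^ 2 * √D)) + 3 * ρ * (√W * (9 * ρ ^ 4 * D)) +
        ρ ^ 2 * √D * (9 * ρ ^ 4 * D) := by ring
  rw [q]
  constructor
  · have e1 : 3 * ρ ^ 2 * -(√V * (ρ ^ 2 * √D)) = -(3 * ρ ^ 2 * (√V * (ρ ^ 2 * √D))) := by ring
    have e2 : 3 * ρ * -(√W * (9 * ρ ^ 4 * D)) = -(3 * ρ * (√W * (9 * ρ ^ 4 * D))) := by ring
    rw [e1] at a1'
    rw [e2] at a2'
    linarith [c3.1]
  · linarith [c3.2]

/-- The cross term. -/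
lemma cross_bound (hρ : 0 ≤ ρ) (hW : 0 ≤ W) (hD : 0 ≤ D)
    (h_l4 : avg (fun y => l y ^ 4) ≤ 3 * W ^ 2)
    (h_R4 : avg (fun y => R y ^ 4) ≤ 81 * ρ ^ 8 * D ^ 2) :
    avg (fun y => (2 * ρ * (l y * R y)) ^ 2) ≤ ((79 / 10) * ρ ^ 3 * √W * √D) ^ 2 := by
  have sqW : √W ^ 2 = W := Real.sq_sqrt hW
  have sqD : √D ^ 2 = D := Real.sq_sqrt hD
  have e1 : (fun y => (2 * ρ * (l y * R y)) ^ 2) = fun y => (4 * ρ ^ 2) * (l y ^ 2 * R y ^ 2) := by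
    funext y; ring
  rw [e1, avg_const_mul]
  have h1 := avg_mul_sq_le (fun y => l y ^ 2) (fun y => R y ^ 2)
  have e2 : (fun t => (l t ^ 2) ^ 2) = fun t => l t ^ 4 := by
    funext t; ring
  have e3' : (fun t => (R t ^ 2) ^ 2) = fun t => R t ^ 4 := by
    funext t; ring
  rw [e2, e3'] at h1
  have h2 : avg (fun y => l y ^ 2 * R y ^ 2) ≤ (156 / 10) * W * (ρ ^ 4 * D) := by
    have h3 : avg (fun y => l y ^ 2 * R y ^ 2) ^ 2 ≤ ((156 / 10) * W * (ρ ^ 4 * D)) ^ 2 := by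
      calc avg (fun y => l y ^ 2 * R y ^ 2) ^ 2
          ≤ avg (fun y => l y ^ 4) * avg (fun y => R y ^ 4) := h1
        _ ≤ (3 * W ^ 2) * (81 * ρ ^ 8 * D ^ 2) :=
            mul_le_mul h_l4 h_R4 (avg_nonneg (fun y => by positivity)) (by positivity)
        _ ≤ ((156 / 10) * W * (ρ ^ 4 * D)) ^ 2 := by
            have : 0 ≤ W ^ 2 * ρ ^ 8 * D ^ 2 := by positivity
            nlinarith
    exact abs_le_of_sq_le_sq' h3 (by positivity) |>.2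
  have e4 : ((79 / 10) * ρ ^ 3 * √W * √D) ^ 2 = (6241 / 100) * (ρ ^ 6 * W * D) := by
    have : ((79 / 10) * ρ ^ 3 * √W * √D) ^ 2 = (6241 / 100) * (ρ ^ 6 * (√W ^ 2) * (√D ^ 2)) := by ring
    rw [this, sqW, sqD]
  rw [e4]
  have h5 : 0 ≤ ρ ^ 6 * W * D := by positivity
  have h6 := mul_le_mul_of_nonneg_left h2 (by positivity : (0 : ℝ) ≤ 4 * ρ ^ 2)
  have e5 : 4 * ρ ^ 2 * ((156 / 10) * W * (ρ ^ 4 * D)) = (624 / 10) * (ρ ^ 6 * W * D) := by ring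
  rw [e5] at h6
  linarith

/-- The square of the fluctuation of `v²`. -/
lemma fluct_bound (hρ : 0 ≤ ρ) (hW : 0 ≤ W) (hD : 0 ≤ D)
    (h_l4 : avg (fun y => l y ^ 4) ≤ 3 * W ^ 2) (hV : avg (fun y => (l y ^ 2 - W) ^ 2) = V)
    (hV0 : 0 ≤ V) (h_R4 : avg (fun y => R y ^ 4) ≤ 81 * ρ ^ 8 * D ^ 2) :
    avg (fun y => (ρ ^ 2 * (l y ^ 2 - W) + 2 * ρ * (l y * R y) +
        (R y ^ 2 - avg (fun y => R y ^ 2))) ^ 2) ≤
      ρ ^ 2 * (ρ ^ 2 * (√V + (79 / 10) * ρ * √W * √D + 9 * ρ ^ 2 * D) ^ 2) := by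
  have sqV : √V ^ 2 = V := Real.sq_sqrt hV0
  have nV := Real.sqrt_nonneg V
  have nW := Real.sqrt_nonneg W
  have nD := Real.sqrt_nonneg D
  set m2 := avg (fun y => R y ^ 2) with hm2
  have hY := cross_bound l R hρ hW hD h_l4 h_R4
  have hX : avg (fun y => (ρ ^ 2 * (l y ^ 2 - W)) ^ 2) ≤ (ρ ^ 2 * √V) ^ 2 := by
    have e1 : (fun y => (ρ ^ 2 * (l y ^ 2 - W)) ^ 2) = fun y => ρ ^ 4 * (l y ^ 2 - W) ^ 2 := by
      funext y; ring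
    rw [e1, avg_const_mul, hV, mul_pow, sqV]
    ring_nf
    exact le_rfl
  have hZ : avg (fun y => (R y ^ 2 - m2) ^ 2) ≤ (9 * ρ ^ 4 * D) ^ 2 := by
    have e1 : (fun y => (R y ^ 2 - m2) ^ 2) = fun y => R y ^ 4 - (2 * m2) * R y ^ 2 + m2 ^ 2 := by
      funext y; ring
    rw [e1, avg_add, avg_sub, avg_const_mul, avg_const, ← hm2]
    have e2 : (9 * ρ ^ 4 * D) ^ 2 = 81 * ρ ^ 8 * D ^ 2 := by ring
    rw [e2]
    nlinarith [sq_nonneg m2]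
  have hS := avg_add_three_sq_le (x := fun y => ρ ^ 2 * (l y ^ 2 - W))
    (y := fun y => 2 * ρ * (l y * R y)) (z := fun y => R y ^ 2 - m2)
    (by positivity : (0 : ℝ) ≤ ρ ^ 2 * √V) (by positivity : (0 : ℝ) ≤ (79 / 10) * ρ ^ 3 * √W * √D)
    (by positivity : (0 : ℝ) ≤ 9 * ρ ^ 4 * D) hX hY hZ
  have hE : (ρ ^ 2 * √V + (79 / 10) * ρ ^ 3 * √W * √D + 9 * ρ ^ 4 * D) ^ 2 =
      ρ ^ 2 * (ρ ^ 2 * (√V + (79 / 10) * ρ * √W * √D + 9 * ρ ^ 2 * D) ^ 2) := by ring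
  rw [hE] at hS
  exact hS

/-- The exact expansion of the variance of the square. -/
lemma var_expansion (h_l1 : avg l = 0) (h_l2 : avg (fun y => l y ^ 2) = W) (h_R1 : avg R = 0)
    (h_lR : avg (fun y => l y * R y) = 0) :
    avg (fun y => ((a + ρ * l y + R y) ^ 2 -
        (a ^ 2 + ρ ^ 2 * W + avg (fun y => R y ^ 2))) ^ 2) =
      4 * a ^ 2 * (ρ ^ 2 * W + avg (fun y => R y ^ 2)) +
        4 * a * avg (fun y => (ρ * l y + R y) ^ 3) +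
        avg (fun y => (ρ ^ 2 * (l y ^ 2 - W) + 2 * ρ * (l y * R y) +
          (R y ^ 2 - avg (fun y => R y ^ 2))) ^ 2) := by
  set m2 := avg (fun y => R y ^ 2) with hm2
  have e : (fun y => ((a + ρ * l y + R y) ^ 2 - (a ^ 2 + ρ ^ 2 * W + m2)) ^ 2) = fun y =>
      (4 * a ^ 2) * (ρ ^ 2 * l y ^ 2 + (2 * ρ) * (l y * R y) + R y ^ 2) +
      (4 * a) * (ρ * l y + R y) ^ 3 +
      (-(4 * a * (ρ ^ 2 * W + m2) * ρ)) * l y + (-(4 * a * (ρ ^ 2 * W + m2))) * R y +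
      (ρ ^ 2 * (l y ^ 2 - W) + 2 * ρ * (l y * R y) + (R y ^ 2 - m2)) ^ 2 := by
    funext y; ring
  rw [e, avg_add, avg_add, avg_add, avg_add, avg_const_mul, avg_const_mul, avg_const_mul,
    avg_const_mul, h_l1, h_R1, avg_add, avg_add, avg_const_mul, avg_const_mul, h_l2, h_lR, ← hm2]
  ring

/-- The variance bound. -/
theorem var_g_sq_le (hρ : 0 ≤ ρ) (hW : 0 ≤ W) (hD : 0 ≤ D)
    (h_l1 : avg l = 0) (h_l2 : avg (fun y => l y ^ 2) = W) (h_l3 : avg (fun y => l y ^ 3) = 0)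
    (h_l4 : avg (fun y => l y ^ 4) ≤ 3 * W ^ 2) (hV : avg (fun y => (l y ^ 2 - W) ^ 2) = V)
    (h_R1 : avg R = 0) (h_lR : avg (fun y => l y * R y) = 0)
    (h_R2 : avg (fun y => R y ^ 2) ≤ ρ ^ 4 * D) (h_R4 : avg (fun y => R y ^ 4) ≤ 81 * ρ ^ 8 * D ^ 2) :
    avg (fun y => ((a + ρ * l y + R y) ^ 2 - avg (fun y => (a + ρ * l y + R y) ^ 2)) ^ 2) ≤
      ρ ^ 2 * (4 * a ^ 2 * (W + ρ ^ 2 * D) +
        ρ ^ 2 * (√V + (79 / 10) * ρ * √W * √D + 9 * ρ ^ 2 * D) ^ 2 +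
        4 * |a| * ρ ^ 2 * (3 * √V * √D + 27 * ρ * √W * D + 9 * ρ ^ 2 * D * √D)) := by
  have hV0 : 0 ≤ V := by
    rw [← hV]
    exact avg_sq_nonneg _
  rw [avg_g_sq l R h_l1 h_l2 h_R1 h_lR, var_expansion l R h_l1 h_l2 h_R1 h_lR]
  have bm3 := third_bound l R hρ hW hD h_l2 h_l3 hV hV0 h_R1 h_R2 h_R4
  have hS := fluct_bound l R hρ hW hD h_l4 hV hV0 h_R4
  have hA := mul_le_mul_of_nonneg_left bm3 (by positivity : (0 : ℝ) ≤ 4 * |a|)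
  set m3 := avg (fun y => (ρ * l y + R y) ^ 3) with hm3
  have hB : 4 * a * m3 ≤ 4 * |a| * |m3| := by
    have := mul_le_mul_of_nonneg_left (le_abs_self (a * m3)) (by norm_num : (0 : ℝ) ≤ 4)
    rw [abs_mul] at this
    linarith
  have hC : 4 * a ^ 2 * (ρ ^ 2 * W + avg (fun y => R y ^ 2)) ≤
      4 * a ^ 2 * (ρ ^ 2 * W + ρ ^ 4 * D) := by
    have : ρ ^ 2 * W + avg (fun y => R y ^ 2) ≤ ρ ^ 2 * W + ρ ^ 4 * D := by linarith
    exact mul_le_mul_of_nonneg_left this (by positivity)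
  have hF : ρ ^ 2 * (4 * a ^ 2 * (W + ρ ^ 2 * D) +
        ρ ^ 2 * (√V + (79 / 10) * ρ * √W * √D + 9 * ρ ^ 2 * D) ^ 2 +
        4 * |a| * ρ ^ 2 * (3 * √V * √D + 27 * ρ * √W * D + 9 * ρ ^ 2 * D * √D)) =
      4 * a ^ 2 * (ρ ^ 2 * W + ρ ^ 4 * D) +
      4 * |a| * (ρ ^ 4 * (3 * √V * √D + 27 * ρ * √W * D + 9 * ρ ^ 2 * D * √D)) +
      ρ ^ 2 * (ρ ^ 2 * (√V + (79 / 10) * ρ * √W * √D + 9 * ρ ^ 2 * D) ^ 2) := by ring
  rw [hF]
  linarith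

end Main

end Vale.Agent.Lib.P322HN
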