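import Vale.Agent.Lib.P322B.Defs

/-!
# The power series of `Ph` and the two analytic inequalities of the high noise regime
-/

namespace Vale.Agent.Lib.P322HN

open Real Finset
open Vale.Agent.Lib.P322B

/-- The coefficient of `x^(k+1)` in `Ph (sqrt x)`. -/
noncomputable def bc (k : ℕ) : ℝ := 1 / (((2:ℝ) * k + 1) * (2 * k + 2))

lemma bc_pos (k : ℕ) : 0 < bc k := by
  unfold bc
  positivity

lemma bc_zero : bc 0 = 1 / 2 := by
  norm_num [bc]

/-- The power series of `Ph`. -/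
lemma Ph_hasSum {t : ℝ} (ht : |t| < 1) :
    HasSum (fun k : ℕ => bc k * (t ^ 2) ^ (k + 1)) (Ph t) := by
  have h1 := Real.hasSum_log_sub_log_of_abs_lt_one ht
  have ht2 : |t ^ 2| < 1 := by
    rw [abs_pow]
    exact pow_lt_one₀ (abs_nonneg _) ht (by norm_num)
  have h2 := Real.hasSum_pow_div_log_of_abs_lt_one ht2
  obtain ⟨hp, hm⟩ := abs_lt.1 ht
  have hp' : 0 < 1 + t := by linarith
  have hm' : 0 < 1 - t := by linarith
  have elog : log (1 - t ^ 2) = log (1 + t) + log (1 - t) := by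
    rw [← Real.log_mul hp'.ne' hm'.ne']
    congr 1
    ring
  have h3 := (h1.mul_left (t / 2)).add (h2.mul_left (-(1 / 2) : ℝ))
  have e : t / 2 * (log (1 + t) - log (1 - t)) + (-(1 / 2) : ℝ) * (-log (1 - t ^ 2)) = Ph t := by
    rw [elog]
    unfold Ph
    ring
  rw [e] at h3
  have e3 : (fun k : ℕ => bc k * (t ^ 2) ^ (k + 1)) = fun k : ℕ =>
      t / 2 * (2 * (1 / (2 * (k : ℝ) + 1)) * t ^ (2 * k + 1)) +
        (-(1 / 2) : ℝ) * ((t ^ 2) ^ (k + 1) / ((k : ℝ) + 1)) := by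
    funext k
    unfold bc
    have hk1 : (2 * (k : ℝ) + 1) ≠ 0 := by positivity
    have hk2 : (2 * (k : ℝ) + 2) ≠ 0 := by positivity
    have hk3 : ((k : ℝ) + 1) ≠ 0 := by positivity
    have e1 : t ^ (2 * k + 1) * t = (t ^ 2) ^ (k + 1) := by
      rw [← pow_succ, ← pow_mul]
      congr 1
    have e2 : t / 2 * (2 * (1 / (2 * (k : ℝ) + 1)) * t ^ (2 * k + 1)) =
        (t ^ (2 * k + 1) * t) / (2 * (k : ℝ) + 1) := by
      field_simp
    rw [e2, e1]
    field_simp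
    ring
  rw [e3]
  exact h3

/-- The shifted series, from the square term on. -/
lemma Ph_hasSum_shift {t : ℝ} (ht : |t| < 1) :
    HasSum (fun k : ℕ => bc (k + 1) * (t ^ 2) ^ (k + 2)) (Ph t - t ^ 2 / 2) := by
  have h := (hasSum_nat_add_iff' (f := fun k : ℕ => bc k * (t ^ 2) ^ (k + 1)) 1).2 (Ph_hasSum ht)
  simp only [sum_range_one, bc_zero, pow_one, zero_add] at h
  have e : Ph t - 1 / 2 * t ^ 2 = Ph t - t ^ 2 / 2 := by ring
  rw [e] at h
  exact h

/-- A more convenient bound for the coefficients. -/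
lemma bc_succ_mul (k : ℕ) : bc (k + 1) * ((k : ℝ) + 2) ≤ 1 / 6 := by
  unfold bc
  push_cast
  have h1 : (0 : ℝ) ≤ k := Nat.cast_nonneg k
  rw [div_mul_eq_mul_div, one_mul, div_le_div_iff₀ (by positivity) (by norm_num)]
  nlinarith

lemma bc_succ_telescope (k : ℕ) :
    bc (k + 1) ≤ 1 / (4 * (k : ℝ) + 5) - 1 / (4 * (k : ℝ) + 9) := by
  have h1 : (0 : ℝ) ≤ k := Nat.cast_nonneg k
  unfold bc
  push_cast
  have e : 1 / (4 * (k : ℝ) + 5) - 1 / (4 * (k : ℝ) + 9) =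
      4 / ((4 * (k : ℝ) + 5) * (4 * (k : ℝ) + 9)) := by
    field_simp
    ring
  rw [e, div_le_div_iff₀ (by positivity) (by positivity)]
  nlinarith

lemma bc_sum_bound (N : ℕ) :
    ∑ k ∈ range N, bc (k + 1) ≤ 1933 / 10000 := by
  have key : ∀ m : ℕ, ∑ k ∈ range (m + 4), bc (k + 1) ≤
      (1 / 12 + 1 / 30 + 1 / 56 + 1 / 90) + 1 / 21 - 1 / (4 * (m : ℝ) + 21) := by
    intro m
    induction m with
    | zero =>
        simp only [Nat.zero_add, sum_range_succ, sum_range_zero, bc]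
        norm_num
    | succ m ih =>
        have e : m + 1 + 4 = (m + 4) + 1 := by ring
        rw [e, sum_range_succ]
        have h2 := bc_succ_telescope (m + 4)
        push_cast at h2 ⊢
        have e3 : 4 * ((m : ℝ) + 4) + 5 = 4 * (m : ℝ) + 21 := by ring
        have e4 : 4 * ((m : ℝ) + 4) + 9 = 4 * ((m : ℝ) + 1) + 21 := by ring
        rw [e3, e4] at h2
        linarith
  have hmono : ∑ k ∈ range N, bc (k + 1) ≤ ∑ k ∈ range (N + 4), bc (k + 1) :=
    sum_le_sum_of_subset_of_nonneg (range_mono (by omega)) (fun _ _ _ => (bc_pos _).le)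
  have h3 := key N
  have h4 : (0 : ℝ) ≤ 1 / (4 * (N : ℝ) + 21) := by positivity
  have h5 : (1 / 12 + 1 / 30 + 1 / 56 + 1 / 90 : ℝ) + 1 / 21 ≤ 1933 / 10000 := by norm_num
  linarith

/-- The tail `∑_{k≥1} bc k`. -/
noncomputable def B2 : ℝ := ∑' k : ℕ, bc (k + 1)

lemma summable_bc : Summable (fun k : ℕ => bc (k + 1)) :=
  summable_of_sum_range_le (fun _ => (bc_pos _).le) bc_sum_bound

lemma B2_le : B2 ≤ 1933 / 10000 :=
  Real.tsum_le_of_sum_range_le (fun _ => (bc_pos _).le) bc_sum_bound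

lemma B2_nonneg : 0 ≤ B2 := tsum_nonneg (fun _ => (bc_pos _).le)

/-- Bregman bound for powers. -/
lemma pow_bregman {τ c : ℝ} (hτ0 : 0 ≤ τ) (hτ1 : τ ≤ 1) (hc0 : 0 ≤ c) (hc1 : c < 1) (k : ℕ) :
    τ ^ (k + 1) ≤ c ^ (k + 1) + ((k : ℝ) + 1) * c ^ k * (τ - c) + (τ - c) ^ 2 / (1 - c) ^ 2 := by
  have key : ∀ k : ℕ, ∃ q : ℝ, 0 ≤ q ∧ (1 - c) ^ 2 * q = 1 - ((k : ℝ) + 1) * c ^ k + k * c ^ (k + 1) ∧
      τ ^ (k + 1) - c ^ (k + 1) - ((k : ℝ) + 1) * c ^ k * (τ - c) ≤ (τ - c) ^ 2 * q := by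
    intro k
    induction k with
    | zero =>
        refine ⟨0, le_rfl, ?_, ?_⟩ <;> simp
    | succ k ih =>
        obtain ⟨q, hq0, hq1, hq2⟩ := ih
        refine ⟨q + ((k : ℝ) + 1) * c ^ k, by positivity, ?_, ?_⟩
        · push_cast
          rw [mul_add, hq1]
          ring
        · have e : τ ^ (k + 1 + 1) - c ^ (k + 1 + 1) - (((k + 1 : ℕ) : ℝ) + 1) * c ^ (k + 1) * (τ - c) =
              τ * (τ ^ (k + 1) - c ^ (k + 1) - ((k : ℝ) + 1) * c ^ k * (τ - c)) +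
                ((k : ℝ) + 1) * c ^ k * (τ - c) ^ 2 := by
            push_cast
            ring
          rw [e]
          have h1 : τ * (τ ^ (k + 1) - c ^ (k + 1) - ((k : ℝ) + 1) * c ^ k * (τ - c)) ≤
              τ * ((τ - c) ^ 2 * q) := mul_le_mul_of_nonneg_left hq2 hτ0
          have h2 : τ * ((τ - c) ^ 2 * q) ≤ (τ - c) ^ 2 * q := by
            have h3 : 0 ≤ (τ - c) ^ 2 * q := by positivity
            nlinarith
          nlinarith
  obtain ⟨q, hq0, hq1, hq2⟩ := key k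
  have hc' : 0 < (1 - c) ^ 2 := by
    have : 0 < 1 - c := by linarith
    positivity
  have hq3 : q ≤ 1 / (1 - c) ^ 2 := by
    rw [le_div_iff₀ hc', mul_comm, hq1]
    have h4 : c ^ (k + 1) ≤ c ^ k := by
      rw [pow_succ]
      have : 0 ≤ c ^ k := by positivity
      nlinarith
    have h5 : 0 ≤ c ^ k := by positivity
    have h6 : (0 : ℝ) ≤ k := Nat.cast_nonneg k
    nlinarith
  have h7 : (τ - c) ^ 2 * q ≤ (τ - c) ^ 2 / (1 - c) ^ 2 := by
    rw [div_eq_mul_one_div]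
    exact mul_le_mul_of_nonneg_left hq3 (sq_nonneg _)
  linarith

/-- The elementary bound `(p+q)^(k+2) ≤ p^(k+2)+q^(k+2)+(k+2) p q (p+q)^k`. -/
lemma add_pow_bound {p q : ℝ} (hp : 0 ≤ p) (hq : 0 ≤ q) (k : ℕ) :
    (p + q) ^ (k + 2) ≤ p ^ (k + 2) + q ^ (k + 2) + ((k : ℝ) + 2) * (p * q) * (p + q) ^ k := by
  induction k with
  | zero =>
      simp only [zero_add, pow_zero, Nat.cast_zero]
      nlinarith
  | succ k ih =>
      have h1 : p ^ (k + 1) + q ^ (k + 1) ≤ (p + q) ^ (k + 1) := by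
        have h2 : p ^ (k + 1) ≤ p ^ (k + 1) := le_rfl
        exact pow_add_pow_le hp hq (by omega)
      have hpq : 0 ≤ p + q := by positivity
      have h3 := mul_le_mul_of_nonneg_left ih hpq
      have h4 := mul_le_mul_of_nonneg_left h1 (mul_nonneg hp hq)
      have e1 : (p + q) ^ (k + 1 + 2) = (p + q) * (p + q) ^ (k + 2) := by ring
      have e2 : (p + q) * (p ^ (k + 2) + q ^ (k + 2) + ((k : ℝ) + 2) * (p * q) * (p + q) ^ k) =
          p ^ (k + 1 + 2) + q ^ (k + 1 + 2) + p * q * (p ^ (k + 1) + q ^ (k + 1)) +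
            ((k : ℝ) + 2) * (p * q) * (p + q) ^ (k + 1) := by ring
      rw [e1]
      rw [e2] at h3
      push_cast
      nlinarith

/-- The surplus inequality: comparison of `Ph (sqrt c)` with `Ph (sqrt p) + Ph (sqrt q)`. -/
lemma Ph_sqrt_surplus {p q c x : ℝ} (hp : 0 ≤ p) (hq : 0 ≤ q) (hc0 : 0 ≤ c) (hr : p + q < 1)
    (hc : c ≤ p + q - p * q - x) (hx : 0 ≤ x) :
    Ph (√c) ≤ Ph (√p) + Ph (√q) - (p * q + x) / 2 + (p * q / 6) / (1 - (p + q)) := by
  have hsq : ∀ {z : ℝ}, 0 ≤ z → z < 1 → |√z| < 1 ∧ (√z) ^ 2 = z := by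
    intro z h0 h1
    refine ⟨?_, Real.sq_sqrt h0⟩
    rw [abs_of_nonneg (Real.sqrt_nonneg z)]
    exact (Real.sqrt_lt' (by norm_num)).2 (by simpa using h1)
  have hpq0 : 0 ≤ p * q := mul_nonneg hp hq
  have hr0 : 0 ≤ p + q := by positivity
  have hcr : c ≤ p + q := by nlinarith
  have hp1 : p < 1 := by linarith
  have hq1 : q < 1 := by linarith
  have hc1 : c < 1 := by linarith
  obtain ⟨hc2, hc3⟩ := hsq hc0 hc1
  obtain ⟨hp2, hp3⟩ := hsq hp hp1
  obtain ⟨hq2, hq3⟩ := hsq hq hq1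
  have s1 := Ph_hasSum_shift hc2
  have s2 := Ph_hasSum_shift hp2
  have s3 := Ph_hasSum_shift hq2
  rw [hc3] at s1
  rw [hp3] at s2
  rw [hq3] at s3
  have s4 := (hasSum_geometric_of_lt_one hr0 hr).mul_left (p * q / 6)
  have s5 := (s2.add s3).add s4
  have hle := hasSum_le (fun k => ?_) s1 s5
  · rw [← div_eq_mul_inv] at hle
    have h6 : c / 2 ≤ (p + q - p * q - x) / 2 := by linarith
    linarith
  · have hb := bc_pos (k + 1)
    have h1 : c ^ (k + 2) ≤ (p + q) ^ (k + 2) := pow_le_pow_left₀ hc0 hcr _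
    have h2 := add_pow_bound hp hq k
    have h3 : bc (k + 1) * c ^ (k + 2) ≤
        bc (k + 1) * (p ^ (k + 2) + q ^ (k + 2) + ((k : ℝ) + 2) * (p * q) * (p + q) ^ k) :=
      mul_le_mul_of_nonneg_left (by linarith) hb.le
    have h4 : bc (k + 1) * (((k : ℝ) + 2) * (p * q) * (p + q) ^ k) ≤
        p * q / 6 * (p + q) ^ k := by
      have h5 := bc_succ_mul k
      have h6 : 0 ≤ (p * q) * (p + q) ^ k := by positivity
      have := mul_le_mul_of_nonneg_right h5 h6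
      calc bc (k + 1) * (((k : ℝ) + 2) * (p * q) * (p + q) ^ k)
          = bc (k + 1) * ((k : ℝ) + 2) * ((p * q) * (p + q) ^ k) := by ring
        _ ≤ 1 / 6 * ((p * q) * (p + q) ^ k) := this
        _ = p * q / 6 * (p + q) ^ k := by ring
    nlinarith

end Vale.Agent.Lib.P322HN
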