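import Vale.Agent.Lib.P322HN.Cube

/-!
# Linear forms, the remainder and the cheap stability statement

For a sign valued `F` on the cube: `F = a + l + Rem`, with `l` the level one part; `Rem` has no
weight on levels zero and one.  The weight `D = 1 - a² - W` above level one dominates
`|a|(1-|a|)` and `c(1-c)` for each level one coefficient `c`.
-/

namespace Vale.Agent.Lib.P322HN

open Finset Real
open Vale.Agent.Lib.P322

variable {n : ℕ}

/-! ### Characters and linear forms -/

lemma chi_sq (i : Fin n) (y : Cube n) : chi i y ^ 2 = 1 := by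
  unfold chi
  split_ifs <;> norm_num

lemma chi_flip_same (i : Fin n) (y : Cube n) : chi i (P322.flip i y) = - chi i y := by
  unfold chi
  rw [flip_same]
  cases y i <;> simp

lemma chi_flip_ne {i j : Fin n} (h : j ≠ i) (y : Cube n) : chi j (P322.flip i y) = chi j y := by
  unfold chi
  rw [flip_ne h]

lemma avg_chi_mul_self (i : Fin n) : avg (fun y => chi i y * chi i y) = 1 := by
  have e : (fun y => chi i y * chi i y) = fun _ => (1 : ℝ) := by
    funext y
    have := chi_sq i y
    nlinarith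
  rw [e, avg_const]

lemma avg_chi_mul_ne {i j : Fin n} (h : i ≠ j) : avg (fun y => chi i y * chi j y) = 0 := by
  have e := avg_flip i (fun y => chi i y * chi j y)
  have e2 : (fun y => chi i (P322.flip i y) * chi j (P322.flip i y)) = fun y => -(chi i y * chi j y) := by
    funext y
    rw [chi_flip_same, chi_flip_ne (Ne.symm h)]
    ring
  have e3 : avg (fun y => -(chi i y * chi j y)) = - avg (fun y => chi i y * chi j y) := by
    have := avg_const_mul (-1) (fun y => chi i y * chi j y)
    simp only [neg_mul, one_mul] at this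
    exact this
  rw [e2, e3] at e
  linarith

lemma coef_linForm (a : Fin n → ℝ) (i : Fin n) : coef (linForm a) i = a i := by
  unfold coef
  have e : (fun y => linForm a y * chi i y) = fun y => chi i y * linForm a y := by
    funext y; ring
  rw [e, avg_mul_linForm]
  rw [Finset.sum_eq_single i]
  · unfold coef
    rw [avg_chi_mul_self, mul_one]
  · intro j _ hj
    unfold coef
    rw [avg_chi_mul_ne (Ne.symm hj), mul_zero]
  · simp

lemma coef_const (c : ℝ) (i : Fin n) : coef (fun _ => c) i = 0 := by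
  unfold coef
  rw [avg_const_mul, avg_chi, mul_zero]

lemma avg_linForm (a : Fin n → ℝ) : avg (linForm a) = 0 := by
  have h := avg_mul_linForm (fun _ => (1 : ℝ)) a
  simp only [one_mul] at h
  have e : avg (linForm a) = avg (fun y => linForm a y) := rfl
  rw [e, h]
  refine sum_eq_zero (fun i _ => ?_)
  rw [coef_const, mul_zero]

lemma moment3 : ∀ {n : ℕ} (a : Fin n → ℝ), avg (fun y => linForm a y ^ 3) = 0 := by
  intro n
  induction n with
  | zero =>
      intro a
      rw [avg_zero_dim]
      simp [linForm]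
  | succ n ih =>
      intro a
      rw [avg_comp_linForm a (fun t => t ^ 3)]
      have e : (fun y => ((a 0 + linForm (fun i => a i.succ) y) ^ 3 +
          (-a 0 + linForm (fun i => a i.succ) y) ^ 3) / 2) =
          fun y => linForm (fun i => a i.succ) y ^ 3 +
            3 * a 0 ^ 2 * linForm (fun i => a i.succ) y := by
        funext y; ring
      rw [e, avg_add, avg_const_mul, ih, avg_linForm]
      ring

lemma TT_linForm (ρ : ℝ) (a : Fin n → ℝ) (y : Cube n) : TT ρ (linForm a) y = ρ * linForm a y := by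
  unfold TT noiseOp linForm
  have e : ∀ x : Cube n, (∑ i, a i * chi i x) * noisePr ((1 - ρ) / 2) x y =
      ∑ i, a i * (chi i x * noisePr ((1 - ρ) / 2) x y) := by
    intro x
    rw [sum_mul]
    exact sum_congr rfl (fun i _ => by ring)
  simp only [e]
  rw [sum_comm, mul_sum]
  refine sum_congr rfl (fun i _ => ?_)
  rw [← mul_sum]
  have h := noiseOp_chi ((1 - ρ) / 2) i y
  unfold noiseOp at h
  rw [h]
  ring

lemma avg_TT (ρ : ℝ) (G : Cube n → ℝ) : avg (TT ρ G) = avg G := avg_noiseOp _ _

lemma coef_TT (ρ : ℝ) (G : Cube n → ℝ) (i : Fin n) : coef (TT ρ G) i = ρ * coef G i := by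
  have := coef_noiseOp ((1 - ρ) / 2) G i
  have e : 1 - 2 * ((1 - ρ) / 2) = ρ := by ring
  rw [e] at this
  exact this

/-! ### The remainder above level one -/

/-- The part of `F` above level one. -/
noncomputable def Rem (F : Cube n → ℝ) (y : Cube n) : ℝ := F y - avg F - linForm (coef F) y

/-- The weight above level one. -/
noncomputable def DD (F : Cube n → ℝ) : ℝ := var F - lev1 F

lemma DD_nonneg (F : Cube n → ℝ) : 0 ≤ DD F := by
  have := lev1_le_var F
  unfold DD
  linarith

lemma avg_Rem (F : Cube n → ℝ) : avg (Rem F) = 0 := by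
  have e : Rem F = fun y => (F y - avg F) - linForm (coef F) y := rfl
  rw [e, avg_sub, avg_sub, avg_const]
  rw [avg_linForm]
  ring

lemma coef_sub' (G H : Cube n → ℝ) (i : Fin n) :
    coef (fun y => G y - H y) i = coef G i - coef H i := by
  unfold coef
  have e : (fun y => (G y - H y) * chi i y) = fun y => G y * chi i y - H y * chi i y := by
    funext y; ring
  rw [e, avg_sub]

lemma coef_Rem (F : Cube n → ℝ) (i : Fin n) : coef (Rem F) i = 0 := by
  have e : Rem F = fun y => (fun y => F y - avg F) y - linForm (coef F) y := rfl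
  rw [e, coef_sub', coef_sub', coef_const, coef_linForm]
  ring

lemma lev1_Rem (F : Cube n → ℝ) : lev1 (Rem F) = 0 := by
  unfold lev1
  refine sum_eq_zero (fun i _ => ?_)
  rw [coef_Rem]
  norm_num

lemma lev1_eq_pair (F : Cube n → ℝ) : avg (fun y => F y * linForm (coef F) y) = lev1 F := by
  rw [avg_mul_linForm]
  unfold lev1
  exact sum_congr rfl (fun i _ => by ring)

lemma var_Rem (F : Cube n → ℝ) : var (Rem F) = DD F := by
  unfold DD var
  rw [avg_Rem]
  have hm2 : avg (fun y => linForm (coef F) y ^ 2) = lev1 F := moment2 _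
  have hp := lev1_eq_pair F
  have e : (fun y => Rem F y ^ 2) = fun y =>
      ((F y ^ 2 - 2 * (F y * linForm (coef F) y)) + linForm (coef F) y ^ 2) +
        (2 * avg F * linForm (coef F) y + (- (2 * avg F) * F y + avg F ^ 2)) := by
    funext y; unfold Rem; ring
  have e3 : avg (fun y => - (2 * avg F) * F y + avg F ^ 2) = - (2 * avg F) * avg F + avg F ^ 2 := by
    rw [avg_add, avg_const_mul, avg_const]
  rw [e, avg_add, avg_add, avg_sub, avg_add, avg_const_mul, avg_const_mul, e3, hm2, hp]
  have e2 : avg (fun y => linForm (coef F) y) = 0 := avg_linForm (coef F)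
  rw [e2]
  ring

/-- The decomposition of the noisy function. -/
lemma TT_decomp (ρ : ℝ) (F : Cube n → ℝ) (y : Cube n) :
    TT ρ F y = avg F + ρ * linForm (coef F) y + TT ρ (Rem F) y := by
  have e : TT ρ (Rem F) y = TT ρ F y - avg F - TT ρ (linForm (coef F)) y := by
    have e1 : Rem F = fun y => (fun y => F y - avg F) y - linForm (coef F) y := rfl
    rw [e1]
    unfold TT
    rw [noiseOp_sub, noiseOp_sub, noiseOp_const]
  rw [e, TT_linForm]
  ring

lemma avg_TT_Rem (ρ : ℝ) (F : Cube n → ℝ) : avg (TT ρ (Rem F)) = 0 := by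
  rw [avg_TT, avg_Rem]

lemma avg_lin_mul_TT_Rem (ρ : ℝ) (F : Cube n → ℝ) :
    avg (fun y => linForm (coef F) y * TT ρ (Rem F) y) = 0 := by
  have e : (fun y => linForm (coef F) y * TT ρ (Rem F) y) =
      fun y => TT ρ (Rem F) y * linForm (coef F) y := by
    funext y; ring
  rw [e, avg_mul_linForm]
  refine sum_eq_zero (fun i _ => ?_)
  rw [coef_TT, coef_Rem]
  ring

lemma TT_Rem_sq {ρ : ℝ} (hρ : ρ ^ 2 ≤ 1) (F : Cube n → ℝ) :
    avg (fun y => TT ρ (Rem F) y ^ 2) ≤ ρ ^ 4 * DD F := by
  have h := TT_sq hρ (Rem F)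
  rw [avg_Rem, lev1_Rem, var_Rem] at h
  simpa using h

lemma TT_Rem_four {ρ : ℝ} (hρ : 3 * ρ ^ 2 ≤ 1) (F : Cube n → ℝ) :
    avg (fun y => TT ρ (Rem F) y ^ 4) ≤ 81 * ρ ^ 8 * DD F ^ 2 := by
  obtain ⟨σ, hσ⟩ : ∃ σ : ℝ, σ ^ 2 = 3 * ρ ^ 2 := ⟨Real.sqrt (3 * ρ ^ 2), Real.sq_sqrt (by positivity)⟩
  have h1 := bonami4 hσ (Rem F)
  have h2 := TT_Rem_sq (ρ := σ) (by rw [hσ]; exact hρ) F
  have e4 : σ ^ 4 = 9 * ρ ^ 4 := by
    have : σ ^ 4 = (σ ^ 2) ^ 2 := by ring
    rw [this, hσ]; ring
  rw [e4] at h2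
  have h0 : 0 ≤ avg (fun y => TT σ (Rem F) y ^ 2) := avg_sq_nonneg _
  have h3 : avg (fun y => TT σ (Rem F) y ^ 2) ^ 2 ≤ (9 * ρ ^ 4 * DD F) ^ 2 :=
    pow_le_pow_left₀ h0 h2 2
  refine h1.trans (h3.trans (le_of_eq ?_))
  ring

/-! ### Sign valued functions -/

section Sign

variable {F : Cube n → ℝ}

lemma sign_cases (hF : ∀ y, F y ^ 2 = 1) (y : Cube n) : F y = 1 ∨ F y = -1 := by
  have h := hF y
  have h2 : (F y - 1) * (F y + 1) = 0 := by ring_nf; linarith
  rcases mul_eq_zero.mp h2 with h3 | h3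
  · left; linarith
  · right; linarith

lemma avg_sq_sign (hF : ∀ y, F y ^ 2 = 1) : avg (fun y => F y ^ 2) = 1 := by
  simp only [hF]
  exact avg_const 1

lemma var_sign (hF : ∀ y, F y ^ 2 = 1) : var F = 1 - avg F ^ 2 := by
  unfold var
  rw [avg_sq_sign hF]

lemma DD_sign (hF : ∀ y, F y ^ 2 = 1) : DD F = 1 - avg F ^ 2 - lev1 F := by
  unfold DD
  rw [var_sign hF]

lemma abs_avg_le_avg_abs (g : Cube n → ℝ) : |avg g| ≤ avg (fun y => |g y|) := by
  rw [abs_le]
  constructor
  · have h := avg_mono (g := fun y => - |g y|) (h := g) (fun y => neg_abs_le (g y))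
    have e : avg (fun y => - |g y|) = - avg (fun y => |g y|) := by
      have := avg_const_mul (-1) (fun y => |g y|)
      simp only [neg_mul, one_mul] at this
      exact this
    rw [e] at h
    linarith
  · exact avg_mono (g := g) (h := fun y => |g y|) (fun y => le_abs_self (g y))

/-- Common computation for an involution-type partner `F'` of `F`. -/
lemma half_facts (hF : ∀ y, F y ^ 2 = 1) {F' : Cube n → ℝ} (hF' : ∀ y, F' y ^ 2 = 1) (y : Cube n) :
    ((F y + F' y) / 2) ^ 2 + ((F y - F' y) / 2) ^ 2 = 1 ∧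
      |(F y - F' y) / 2| = ((F y - F' y) / 2) ^ 2 ∧ |(F y + F' y) / 2| = ((F y + F' y) / 2) ^ 2 := by
  rcases sign_cases hF y with h | h <;> rcases sign_cases hF' y with h' | h' <;>
    rw [h, h'] <;> norm_num

/-- Antipodal map. -/
def negC (y : Cube n) : Cube n := fun i => !y i

lemma negC_negC (y : Cube n) : negC (negC y) = y := by
  funext i
  simp [negC]

/-- Antipodal map as an equivalence. -/
def negEquiv : Cube n ≃ Cube n where
  toFun := negC
  invFun := negC
  left_inv := negC_negC
  right_inv := negC_negC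

lemma avg_negC (g : Cube n → ℝ) : avg (fun y => g (negC y)) = avg g := by
  unfold avg
  have := Equiv.sum_comp (negEquiv (n := n)) g
  congr 1

lemma chi_negC (i : Fin n) (y : Cube n) : chi i (negC y) = - chi i y := by
  unfold chi negC
  cases y i <;> simp

lemma linForm_negC (a : Fin n → ℝ) (y : Cube n) : linForm a (negC y) = - linForm a y := by
  unfold linForm
  rw [← sum_neg_distrib]
  refine sum_congr rfl (fun i _ => ?_)
  rw [chi_negC]
  ring

lemma lev1_nonneg (G : Cube n → ℝ) : 0 ≤ lev1 G := sum_nonneg (fun _ _ => sq_nonneg _)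

lemma lev1_le_one (hF : ∀ y, F y ^ 2 = 1) : lev1 F ≤ 1 := by
  have h := lev1_le_var F
  rw [var_sign hF] at h
  nlinarith [sq_nonneg (avg F)]

/-- `F1`: level one weight against the mean. -/
theorem lev1_le_one_sub_abs (hF : ∀ y, F y ^ 2 = 1) : lev1 F ≤ 1 - |avg F| := by
  set F' : Cube n → ℝ := fun y => F (negC y) with hF'def
  have hF' : ∀ y, F' y ^ 2 = 1 := fun y => hF _
  set L := linForm (coef F) with hL
  set W := lev1 F with hW
  have hW0 : 0 ≤ W := lev1_nonneg F
  have hLL : avg (fun y => L y ^ 2) = W := moment2 _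
  have hFL : avg (fun y => F y * L y) = W := lev1_eq_pair F
  have hF'L : avg (fun y => F' y * L y) = - W := by
    have h := avg_negC (fun y => F y * L y)
    have e : (fun y => F (negC y) * L (negC y)) = fun y => - (F' y * L y) := by
      funext y
      rw [hL, linForm_negC]
      simp only [hF'def]
      ring
    rw [e, hFL] at h
    have e2 : avg (fun y => - (F' y * L y)) = - avg (fun y => F' y * L y) := by
      have := avg_const_mul (-1) (fun y => F' y * L y)
      simp only [neg_mul, one_mul] at this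
      exact this
    rw [e2] at h
    linarith
  have hF'a : avg F' = avg F := avg_negC F
  set O : Cube n → ℝ := fun y => (F y - F' y) / 2 with hO
  set E : Cube n → ℝ := fun y => (F y + F' y) / 2 with hE
  have hOL : avg (fun y => O y * L y) = W := by
    have e : (fun y => O y * L y) = fun y => (1 / 2 : ℝ) * (F y * L y - F' y * L y) := by
      funext y; simp only [hO]; ring
    rw [e, avg_const_mul, avg_sub, hFL, hF'L]
    ring
  have hEa : avg E = avg F := by
    have e : E = fun y => (1 / 2 : ℝ) * (F y + F' y) := by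
      funext y; simp only [hE]; ring
    rw [e, avg_const_mul, avg_add, hF'a]
    ring
  have hEO : avg (fun y => E y ^ 2) + avg (fun y => O y ^ 2) = 1 := by
    rw [← avg_add]
    have e : (fun y => E y ^ 2 + O y ^ 2) = fun _ => (1 : ℝ) := by
      funext y
      exact (half_facts hF hF' y).1
    rw [e, avg_const]
  have habs : |avg F| ≤ avg (fun y => E y ^ 2) := by
    rw [← hEa]
    refine (abs_avg_le_avg_abs E).trans (le_of_eq ?_)
    congr 1
    funext y
    exact (half_facts hF hF' y).2.2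
  have hcs := avg_mul_sq_le O L
  rw [hOL, hLL] at hcs
  have hO2 : avg (fun y => O y ^ 2) ≤ 1 - |avg F| := by linarith
  have hO0 : 0 ≤ avg (fun y => O y ^ 2) := avg_sq_nonneg _
  by_cases hW1 : W = 0
  · rw [hW1]; linarith
  · have hW2 : 0 < W := lt_of_le_of_ne hW0 (Ne.symm hW1)
    have : W ≤ avg (fun y => O y ^ 2) := by
      by_contra hc
      push Not at hc
      nlinarith
    linarith

/-- `F2`: level one weight off one coordinate. -/
theorem lev1_sub_coef_sq (hF : ∀ y, F y ^ 2 = 1) (i : Fin n) :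
    lev1 F - coef F i ^ 2 ≤ 1 - |coef F i| - avg F ^ 2 := by
  set F' : Cube n → ℝ := fun y => F (P322.flip i y) with hF'def
  have hF' : ∀ y, F' y ^ 2 = 1 := fun y => hF _
  set a' : Fin n → ℝ := fun j => if j = i then 0 else coef F j with ha'
  set L := linForm a' with hL
  set S := lev1 F - coef F i ^ 2 with hS
  have hsum : ∑ j, a' j ^ 2 = S := by
    have e : ∀ j, a' j ^ 2 = coef F j ^ 2 - (if j = i then coef F i ^ 2 else 0) := by
      intro j
      simp only [ha']
      split_ifs with h
      · rw [h]; ring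
      · ring
    simp only [e]
    rw [sum_sub_distrib, Finset.sum_ite_eq']
    simp [hS, lev1]
  have hLflip : ∀ y, L (P322.flip i y) = L y := by
    intro y
    simp only [hL]
    unfold linForm
    refine sum_congr rfl (fun j _ => ?_)
    by_cases h : j = i
    · simp [ha', h]
    · rw [chi_flip_ne h]
  have hLL : avg (fun y => L y ^ 2) = S := by
    rw [hL, moment2, hsum]
  have hL0 : avg L = 0 := avg_linForm a'
  have hFL : avg (fun y => F y * L y) = S := by
    rw [hL, avg_mul_linForm, ← hsum]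
    refine sum_congr rfl (fun j _ => ?_)
    simp only [ha']
    split_ifs <;> ring
  have hF'L : avg (fun y => F' y * L y) = S := by
    have h := avg_flip i (fun y => F y * L y)
    simp only [hLflip] at h
    rw [hFL] at h
    exact h
  have hF'a : avg F' = avg F := avg_flip i F
  have hchi : avg (fun y => F' y * chi i y) = - coef F i := by
    have h := avg_flip i (fun y => F y * chi i y)
    simp only [chi_flip_same] at h
    have e : (fun y => F (P322.flip i y) * - chi i y) = fun y => (-1 : ℝ) * (F' y * chi i y) := by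
      funext y; simp only [hF'def]; ring
    rw [e, avg_const_mul] at h
    unfold coef
    linarith
  set O : Cube n → ℝ := fun y => (F y - F' y) / 2 with hO
  set E : Cube n → ℝ := fun y => (F y + F' y) / 2 with hE
  have hOchi : avg (fun y => O y * chi i y) = coef F i := by
    have e : (fun y => O y * chi i y) = fun y => (1 / 2 : ℝ) * (F y * chi i y - F' y * chi i y) := by
      funext y; simp only [hO]; ring
    rw [e, avg_const_mul, avg_sub, hchi]
    unfold coef
    ring
  have hEa : avg E = avg F := by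
    have e : E = fun y => (1 / 2 : ℝ) * (F y + F' y) := by
      funext y; simp only [hE]; ring
    rw [e, avg_const_mul, avg_add, hF'a]
    ring
  have hEL : avg (fun y => E y * L y) = S := by
    have e : (fun y => E y * L y) = fun y => (1 / 2 : ℝ) * (F y * L y + F' y * L y) := by
      funext y; simp only [hE]; ring
    rw [e, avg_const_mul, avg_add, hFL, hF'L]
    ring
  have hEO : avg (fun y => E y ^ 2) + avg (fun y => O y ^ 2) = 1 := by
    rw [← avg_add]
    have e : (fun y => E y ^ 2 + O y ^ 2) = fun _ => (1 : ℝ) := by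
      funext y
      exact (half_facts hF hF' y).1
    rw [e, avg_const]
  have habs : |coef F i| ≤ avg (fun y => O y ^ 2) := by
    rw [← hOchi]
    refine (abs_avg_le_avg_abs _).trans (le_of_eq ?_)
    congr 1
    funext y
    have hc : |chi i y| = 1 := by
      unfold chi
      split_ifs <;> norm_num
    rw [abs_mul, hc, mul_one]
    exact (half_facts hF hF' y).2.1
  -- centre `E`
  set a := avg F with ha
  have hE2 : avg (fun y => (E y - a) ^ 2) = avg (fun y => E y ^ 2) - a ^ 2 := by
    have e : (fun y => (E y - a) ^ 2) = fun y => E y ^ 2 + (- (2 * a) * E y + a ^ 2) := by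
      funext y; ring
    rw [e, avg_add, avg_add, avg_const_mul, avg_const, hEa]
    ring
  have hA : 0 ≤ avg (fun y => (E y - a) ^ 2) := avg_sq_nonneg _
  have hEcL : avg (fun y => (E y - a) * L y) = S := by
    have e : (fun y => (E y - a) * L y) = fun y => E y * L y - a * L y := by
      funext y; ring
    rw [e, avg_sub, avg_const_mul, hEL, hL0]
    ring
  have hcs := avg_mul_sq_le (fun y => E y - a) L
  rw [hEcL, hLL, hE2] at hcs
  rw [hE2] at hA
  have hS0 : 0 ≤ S := by rw [← hsum]; exact sum_nonneg (fun _ _ => sq_nonneg _)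
  have hfin : S ≤ avg (fun y => E y ^ 2) - a ^ 2 := by
    by_cases hS1 : S = 0
    · rw [hS1]; exact hA
    · have hS2 : 0 < S := lt_of_le_of_ne hS0 (Ne.symm hS1)
      by_contra hc
      push Not at hc
      nlinarith
  linarith

/-- `D ≥ |a|(1-|a|)`. -/
theorem DD_ge_avg (hF : ∀ y, F y ^ 2 = 1) : |avg F| * (1 - |avg F|) ≤ DD F := by
  rw [DD_sign hF]
  have h := lev1_le_one_sub_abs hF
  have e : |avg F| ^ 2 = avg F ^ 2 := sq_abs _
  nlinarith

/-- `D ≥ c(1-c)` for each level one coefficient. -/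
theorem DD_ge_coef (hF : ∀ y, F y ^ 2 = 1) (i : Fin n) :
    |coef F i| * (1 - |coef F i|) ≤ DD F := by
  rw [DD_sign hF]
  have h := lev1_sub_coef_sq hF i
  have e : |coef F i| ^ 2 = coef F i ^ 2 := sq_abs _
  nlinarith

/-- Variance of the square of the level one part. -/
lemma var_lin_sq (a : Fin n → ℝ) :
    avg (fun y => (linForm a y ^ 2 - ∑ i, a i ^ 2) ^ 2) =
      2 * (∑ i, a i ^ 2) ^ 2 - 2 * ∑ i, a i ^ 4 := by
  have e : (fun y => (linForm a y ^ 2 - ∑ i, a i ^ 2) ^ 2) = fun y =>
      linForm a y ^ 4 + (- (2 * ∑ i, a i ^ 2) * linForm a y ^ 2 + (∑ i, a i ^ 2) ^ 2) := by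
    funext y; ring
  rw [e, avg_add, avg_add, avg_const_mul, avg_const, moment4, moment2]
  ring

/-- The variance of the square of the level one part: the far bound. -/
lemma VV_le (F : Cube n → ℝ) :
    avg (fun y => (linForm (coef F) y ^ 2 - lev1 F) ^ 2) ≤ 2 * lev1 F ^ 2 := by
  have h := var_lin_sq (coef F)
  have h0 : 0 ≤ ∑ i, coef F i ^ 4 := sum_four_nonneg _
  have e : lev1 F = ∑ i, coef F i ^ 2 := rfl
  rw [e, h]
  linarith

/-- The variance of the square of the level one part: the near bound. -/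
lemma VV_le_near (hF : ∀ y, F y ^ 2 = 1) (i : Fin n) :
    avg (fun y => (linForm (coef F) y ^ 2 - lev1 F) ^ 2) ≤ 4 * (lev1 F - coef F i ^ 2) := by
  have h := var_lin_sq (coef F)
  have e : lev1 F = ∑ i, coef F i ^ 2 := rfl
  have h1 : coef F i ^ 4 ≤ ∑ j, coef F j ^ 4 :=
    single_le_sum (f := fun j => coef F j ^ 4) (fun _ _ => by positivity) (mem_univ i)
  have h2 : coef F i ^ 2 ≤ lev1 F :=
    single_le_sum (f := fun j => coef F j ^ 2) (fun _ _ => by positivity) (mem_univ i)
  have hW1 := lev1_le_one hF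
  rw [← e] at h
  rw [h]
  have hc0 : 0 ≤ coef F i ^ 2 := sq_nonneg _
  have e4 : coef F i ^ 4 = (coef F i ^ 2) ^ 2 := by ring
  rw [e4] at h1
  nlinarith [mul_nonneg (sub_nonneg.2 h2) (by linarith : 0 ≤ 2 - lev1 F - coef F i ^ 2)]

/-- Pointwise estimate for the exclusion of small coefficients. -/
lemma excl_pointwise (l f : ℝ) (hf : f ^ 2 = 1) :
    (l ^ 2 - 1) ^ 2 ≤ 8 * (f - l) ^ 2 + (1 / 32) * ((3 / 2) * l ^ 6 - (9 / 2) * l ^ 2 + 3) := by
  have e1 : (l ^ 2 - 1) ^ 2 = (f - l) ^ 2 * (f + l) ^ 2 := by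
    have : l ^ 2 - 1 = l ^ 2 - f ^ 2 := by rw [hf]
    rw [this]; ring
  have hy : (f + l) ^ 2 ≤ (3 / 2) * l ^ 2 + 3 := by nlinarith [sq_nonneg (l - 2 * f)]
  have h1 : 0 ≤ (f - l) ^ 2 * ((f + l) ^ 2 - 16) ^ 2 := by positivity
  have h2 : (l ^ 2 - 1) ^ 2 * (f + l) ^ 2 ≤ (l ^ 2 - 1) ^ 2 * ((3 / 2) * l ^ 2 + 3) :=
    mul_le_mul_of_nonneg_left hy (sq_nonneg _)
  have h3 : (f - l) ^ 2 * (f + l) ^ 2 * (f + l) ^ 2 = (l ^ 2 - 1) ^ 2 * (f + l) ^ 2 := by rw [e1]
  have h4 : (l ^ 2 - 1) ^ 2 * ((3 / 2) * l ^ 2 + 3) = (3 / 2) * l ^ 6 - (9 / 2) * l ^ 2 + 3 := by ring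
  rw [e1] at h2 ⊢
  nlinarith

/-- A sign function with most of its weight at level one has a large coefficient. -/
theorem exists_large_coef (hF : ∀ y, F y ^ 2 = 1) (hW : 23 / 25 ≤ lev1 F) :
    ∃ i, 91 / 100 ≤ |coef F i| := by
  by_contra hcon
  push Not at hcon
  set W := lev1 F with hWdef
  have hW1 : W ≤ 1 := lev1_le_one hF
  have hD : DD F ≤ 2 / 25 := by
    rw [DD_sign hF]
    nlinarith [sq_nonneg (avg F)]
  have hsmall : ∀ i, coef F i ^ 2 ≤ 81 / 10000 := by
    intro i
    have h1 := DD_ge_coef hF i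
    have h2 := hcon i
    have h3 : |coef F i| ≤ 9 / 100 := by
      by_contra hc
      push Not at hc
      nlinarith
    have h4 := abs_nonneg (coef F i)
    rw [← sq_abs]
    nlinarith
  have hR : ∑ i, coef F i ^ 4 ≤ (81 / 10000) * W := by
    rw [hWdef]
    unfold lev1
    rw [mul_sum]
    refine sum_le_sum (fun i _ => ?_)
    have := hsmall i
    have h0 := sq_nonneg (coef F i)
    nlinarith
  have hm2 : avg (fun y => linForm (coef F) y ^ 2) = W := moment2 _
  have hm4 : avg (fun y => linForm (coef F) y ^ 4) = 3 * W ^ 2 - 2 * ∑ i, coef F i ^ 4 := moment4 _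
  have hm6 : avg (fun y => linForm (coef F) y ^ 6) ≤ 15 * W ^ 3 := moment6 _
  have hFL : avg (fun y => F y * linForm (coef F) y) = W := lev1_eq_pair F
  have hmain := avg_mono (g := fun y => (linForm (coef F) y ^ 2 - 1) ^ 2)
    (h := fun y => 8 * (F y - linForm (coef F) y) ^ 2 +
      (1 / 32) * ((3 / 2) * linForm (coef F) y ^ 6 - (9 / 2) * linForm (coef F) y ^ 2 + 3))
    (fun y => excl_pointwise _ _ (hF y))
  have el : avg (fun y => (linForm (coef F) y ^ 2 - 1) ^ 2) =
      3 * W ^ 2 - 2 * ∑ i, coef F i ^ 4 - 2 * W + 1 := by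
    have e : (fun y => (linForm (coef F) y ^ 2 - 1) ^ 2) =
        fun y => (linForm (coef F) y ^ 4 - 2 * linForm (coef F) y ^ 2) + 1 := by
      funext y; ring
    rw [e, avg_add, avg_sub, avg_const_mul, hm2, hm4, avg_const]
  have er : avg (fun y => 8 * (F y - linForm (coef F) y) ^ 2 +
      (1 / 32) * ((3 / 2) * linForm (coef F) y ^ 6 - (9 / 2) * linForm (coef F) y ^ 2 + 3)) =
      8 * (1 - W) + (1 / 32) * ((3 / 2) * avg (fun y => linForm (coef F) y ^ 6) - (9 / 2) * W + 3) := by
    have e1 : (fun y => (F y - linForm (coef F) y) ^ 2) =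
        fun y => (F y ^ 2 - 2 * (F y * linForm (coef F) y)) + linForm (coef F) y ^ 2 := by
      funext y; ring
    have h2 : avg (fun y => (F y - linForm (coef F) y) ^ 2) = 1 - W := by
      rw [e1, avg_add, avg_sub, avg_const_mul, avg_sq_sign hF, hFL, hm2]
      ring
    have e3 : (fun y => (3 / 2 : ℝ) * linForm (coef F) y ^ 6 - (9 / 2) * linForm (coef F) y ^ 2 + 3) =
        fun y => ((3 / 2 : ℝ) * linForm (coef F) y ^ 6 - (9 / 2) * linForm (coef F) y ^ 2) + 3 := rfl
    rw [avg_add, avg_const_mul, avg_const_mul, h2, e3, avg_add, avg_sub, avg_const_mul, avg_const_mul,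
      hm2, avg_const]
  rw [el, er] at hmain
  have hW3 : W ^ 3 ≤ 1 := pow_le_one₀ (by linarith) hW1
  nlinarith

/-- The near bound in the form used later. -/
theorem VV_le_DD (hF : ∀ y, F y ^ 2 = 1) (hW : 23 / 25 ≤ lev1 F) :
    avg (fun y => (linForm (coef F) y ^ 2 - lev1 F) ^ 2) ≤ (22 / 5) * DD F := by
  obtain ⟨i, hi⟩ := exists_large_coef hF hW
  have h1 := VV_le_near hF i
  have h2 := lev1_sub_coef_sq hF i
  have h3 := DD_ge_coef hF i
  have h4 : 0 ≤ 1 - |coef F i| := by
    have := DD_sign hF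
    have h5 : |coef F i| ^ 2 = coef F i ^ 2 := sq_abs _
    have h6 : coef F i ^ 2 ≤ lev1 F :=
      single_le_sum (f := fun j => coef F j ^ 2) (fun _ _ => by positivity) (mem_univ i)
    have h7 := lev1_le_one hF
    nlinarith [abs_nonneg (coef F i)]
  have h8 : 0 ≤ avg F ^ 2 := sq_nonneg _
  nlinarith

/-- The noisy function stays inside `(-1,1)`. -/
theorem abs_TT_lt_one (hF : ∀ y, F y ^ 2 = 1) (ha : |avg F| < 1) {ρ : ℝ} (h0 : 0 ≤ ρ) (h1 : ρ < 1)
    (y : Cube n) : |TT ρ F y| < 1 := by
  have hε0 : 0 < (1 - ρ) / 2 := by linarith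
  have hε1 : (1 - ρ) / 2 < 1 := by linarith
  have hP : ∀ x, 0 < noisePr ((1 - ρ) / 2) x y := fun x => noisePr_pos hε0 hε1 x y
  have hS := sum_noisePr_left ((1 - ρ) / 2) y
  obtain ⟨x₁, hx₁⟩ : ∃ x, F x = 1 := by
    by_contra hc
    push Not at hc
    have e : ∀ x, F x = -1 := fun x => (sign_cases hF x).resolve_left (hc x)
    have : avg F = -1 := by
      have e2 : F = fun _ => (-1 : ℝ) := funext e
      rw [e2, avg_const]
    rw [this] at ha
    norm_num at ha
  obtain ⟨x₀, hx₀⟩ : ∃ x, F x = -1 := by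
    by_contra hc
    push Not at hc
    have e : ∀ x, F x = 1 := fun x => (sign_cases hF x).resolve_right (hc x)
    have : avg F = 1 := by
      have e2 : F = fun _ => (1 : ℝ) := funext e
      rw [e2, avg_const]
    rw [this] at ha
    norm_num at ha
  have hle : ∀ x, 0 ≤ 1 - F x ∧ 0 ≤ 1 + F x := by
    intro x
    rcases sign_cases hF x with h | h <;> rw [h] <;> norm_num
  have e1 : 1 - TT ρ F y = ∑ x, (1 - F x) * noisePr ((1 - ρ) / 2) x y := by
    unfold TT noiseOp
    simp only [sub_mul, one_mul]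
    rw [sum_sub_distrib, hS]
  have e2 : 1 + TT ρ F y = ∑ x, (1 + F x) * noisePr ((1 - ρ) / 2) x y := by
    unfold TT noiseOp
    simp only [add_mul, one_mul]
    rw [sum_add_distrib, hS]
  have p1 : 0 < 1 - TT ρ F y := by
    rw [e1]
    refine sum_pos' (fun x _ => mul_nonneg (hle x).1 (hP x).le) ⟨x₀, mem_univ _, ?_⟩
    rw [hx₀]
    have := hP x₀
    linarith
  have p2 : 0 < 1 + TT ρ F y := by
    rw [e2]
    refine sum_pos' (fun x _ => mul_nonneg (hle x).2 (hP x).le) ⟨x₁, mem_univ _, ?_⟩
    rw [hx₁]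
    have := hP x₁
    linarith
  rw [abs_lt]
  constructor <;> linarith

end Sign

end Vale.Agent.Lib.P322HN
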